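import Vale.Agent.P078.Sharp.Mix.Centre
import Vale.Agent.P078.Mix.Spaces

/-!
# The three subspaces of random word vectors
-/

set_option linter.unusedSectionVars false

namespace Vale.Agent.P078.Sharp

open ComplexInnerProductSpace
open Filter Topology
open Vale.Agent.P078 Vale.Agent.P078.General Vale.Agent.P078.Finite
open scoped CStarAlgebra

universe u

variable {H : Type u} [NormedAddCommGroup H] [InnerProductSpace ℂ H] [CompleteSpace H]
variable {M : VonNeumannAlgebra H} {A : StarSubalgebra ℂ (H →L[ℂ] H)} {Ω : H}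

/-- A word with interior elements orthogonal to the normalisers. -/
def CWGood {r : ℕ} (hA : IsMASAIn M A) (Ω : H) (Ms : List (CPos H r)) : Prop :=
  Ms ≠ [] ∧ (∀ x ∈ Ms, CPos.Good hA x) ∧ ∀ x ∈ Ms.dropLast, OrthN M A Ω x.2

section

variable {hA : IsMASAIn M A} {r : ℕ}

/-- A word, after a fixed element. -/
noncomputable def cwvec (hA : IsMASAIn M A) (Ω : H) (z : H →L[ℂ] H)
    (Ms : List (CPos H r)) : Fam hA r :=
  Fam.vec hA r Ω (fun P f => z * cword (bFam P f) Ms)

lemma exists_cword_bound {Ms : List (CPos H r)} (hMs : ∀ x ∈ Ms, CPos.Good hA x) :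
    ∃ C : ℝ, 0 ≤ C ∧ ∀ (P : Part A) (f : Fin P.n → Fin r), ‖cword (bFam P f) Ms‖ ≤ C := by
  induction Ms with
  | nil => exact ⟨1, zero_le_one, fun P f => (IsStarProjection.one (H →L[ℂ] H)).norm_le⟩
  | cons x Ms ih =>
    obtain ⟨C, hC0, hC⟩ := ih (fun y hy => hMs y (List.mem_cons_of_mem _ hy))
    refine ⟨‖x.1.1‖ * ‖x.2‖ * C, by positivity, fun P f => ?_⟩
    rw [cword_cons]
    refine (norm_mul_le _ _).trans (mul_le_mul ?_ (hC P f) (norm_nonneg _) (by positivity))
    refine (norm_mul_le _ _).trans (mul_le_mul_of_nonneg_right ?_ (norm_nonneg _))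
    exact (norm_mul_le _ _).trans (mul_le_of_le_one_right (norm_nonneg _)
      (norm_csProd_le (norm_bFam_le P f) (hMs x (List.mem_cons_self ..)).2.2.1))

lemma cwvec_at (z : H →L[ℂ] H) {Ms : List (CPos H r)}
    (hMs : ∀ x ∈ Ms, CPos.Good hA x) (P : Part A) (f : Fin P.n → Fin r) :
    (cwvec hA Ω z Ms).at' P f = (z * cword (bFam P f) Ms) Ω := by
  obtain ⟨C, hC0, hC⟩ := exists_cword_bound hMs
  exact Fam.vec_at ⟨‖z‖ * C, fun P f => (norm_mul_le _ _).trans
    (mul_le_mul_of_nonneg_left (hC P f) (norm_nonneg _))⟩ P f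

lemma cwvec_add (z z' : H →L[ℂ] H) {Ms : List (CPos H r)}
    (hMs : ∀ x ∈ Ms, CPos.Good hA x) :
    cwvec hA Ω (z + z') Ms = cwvec hA Ω z Ms + cwvec hA Ω z' Ms :=
  Fam.ext' (fun P f => by simp [cwvec_at _ hMs])

lemma cwvec_smul (k : ℂ) (z : H →L[ℂ] H) {Ms : List (CPos H r)}
    (hMs : ∀ x ∈ Ms, CPos.Good hA x) :
    cwvec hA Ω (k • z) Ms = k • cwvec hA Ω z Ms :=
  Fam.ext' (fun P f => by simp [cwvec_at _ hMs])

lemma cword_mem_M {b : Fin r → (H →L[ℂ] H)} (hb : ∀ k, b k ∈ A) {Ms : List (CPos H r)}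
    (hMs : ∀ x ∈ Ms, CPos.Good hA x) : cword b Ms ∈ M := by
  induction Ms with
  | nil => exact one_mem M
  | cons x Ms ih =>
    have hx := hMs x (List.mem_cons_self ..)
    rw [cword_cons]
    exact mul_mem (mul_mem (hA.mem_M (mul_mem hx.1 (csProd_mem hb hx.2.2.1))) hx.2.2.2.1)
      (ih (fun y hy => hMs y (List.mem_cons_of_mem _ hy)))

/-- The adjoint letter. -/
lemma good_star {x : CPos H r} (hx : CPos.Good hA x) {z : H →L[ℂ] H} (hz : z ∈ M) :
    CPos.Good hA ((star x.1.1, x.1.2), z) := by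
  refine ⟨star_mem hx.1, hx.2.1, hx.2.2.1, hz, ?_⟩
  filter_upwards [hx.2.2.2.2] with P hP
  refine List.Pairwise.imp_of_mem (fun {u v} hu hv hs i => ?_) hP
  obtain ⟨u', hu', rfl⟩ := List.mem_map.1 hu
  obtain ⟨v', hv', rfl⟩ := List.mem_map.1 hv
  have hU := (hx.2.2.1 u' hu').conj_mem (P.mem i)
  have hV := (hx.2.2.1 v' hv').conj_mem (P.mem i)
  have sU : star (u'.1 * P.e i * star u'.1) = u'.1 * P.e i * star u'.1 :=
    ((hx.2.2.1 u' hu').conj_proj hA (P.mem i) (P.proj i)).isSelfAdjoint.star_eq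
  have sV : star (v'.1 * P.e i * star v'.1) = v'.1 * P.e i * star v'.1 :=
    ((hx.2.2.1 v' hv').conj_proj hA (P.mem i) (P.proj i)).isSelfAdjoint.star_eq
  have e := congrArg star (hs i)
  rw [star_mul, star_mul, sU, sV, star_zero, hA.comm hV hU] at e
  rw [hA.comm (star_mem hx.1) (mul_mem hU hV)]
  exact e

lemma good_change {x : CPos H r} (hx : CPos.Good hA x) {z : H →L[ℂ] H} (hz : z ∈ M) :
    CPos.Good hA (x.1, z) :=
  ⟨hx.1, hx.2.1, hx.2.2.1, hz, hx.2.2.2.2⟩

lemma star_cword_mul {b : Fin r → (H →L[ℂ] H)} (hb : ∀ k, b k ∈ A) (hbs : ∀ k, IsSelfAdjoint (b k)) :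
    ∀ {Ms : List (CPos H r)}, (∀ x ∈ Ms, CPos.Good hA x) → ∀ {a : H →L[ℂ] H}
      {T : List (Site H r)}, a ∈ A → SitesGood M A T → ∀ z : H →L[ℂ] H,
      star (cword b Ms * (a * csProd b T)) * z = cword b (crev Ms (a, T) z)
  | [], _, a, T, ha, hT, z => by
    simp only [crev, cword_nil, one_mul, cword_cons, mul_one]
    rw [star_mul, csProd_sa hA hb hbs hT, hA.comm (csProd_mem hb hT) (star_mem ha)]
  | x :: Ms, hMs, a, T, ha, hT, z => by
    have hx := hMs x (List.mem_cons_self ..)
    have ih := star_cword_mul hb hbs (Ms := Ms)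
      (fun y hy => hMs y (List.mem_cons_of_mem _ hy)) ha hT (star x.2)
    have e : star (x.1.1 * csProd b x.1.2) = star x.1.1 * csProd b x.1.2 := by
      rw [star_mul, csProd_sa hA hb hbs hx.2.2.1,
        hA.comm (csProd_mem hb hx.2.2.1) (star_mem hx.1)]
    simp only [crev, cword_append, ← ih, cword_cons, cword_nil, mul_one]
    rw [mul_assoc _ (cword b Ms) _, star_mul, star_mul (x.1.1 * csProd b x.1.2), e]
    simp only [mul_assoc]

lemma good_crev : ∀ {Ms : List (CPos H r)}, (∀ x ∈ Ms, CPos.Good hA x) → ∀ {F : CPos H r},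
    CPos.Good hA F → ∀ {z : H →L[ℂ] H}, z ∈ M → ∀ x ∈ crev Ms F.1 z, CPos.Good hA x
  | [], _, F, hF, z, hz, x, hx => by
    simp only [crev, List.mem_singleton] at hx
    exact hx ▸ good_star hF hz
  | y :: Ms, hMs, F, hF, z, hz, x, hx => by
    have hy := hMs y (List.mem_cons_self ..)
    simp only [crev, List.mem_append, List.mem_singleton] at hx
    rcases hx with hx | rfl
    · exact good_crev (fun w hw => hMs w (List.mem_cons_of_mem _ hw)) hF
        (star_mem hy.2.2.2.1) x hx
    · exact good_star hy hz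

lemma dropLast_crev : ∀ (Ms : List (CPos H r)) (F : (H →L[ℂ] H) × List (Site H r))
    (z : H →L[ℂ] H), ∀ x ∈ (crev Ms F z).dropLast, ∃ y ∈ Ms, x.2 = star y.2
  | [], F, z, x, hx => by simp [crev] at hx
  | y :: Ms, F, z, x, hx => by
    simp only [crev, List.dropLast_concat] at hx
    have key : ∀ (Ms : List (CPos H r)) (z : H →L[ℂ] H), ∀ x ∈ crev Ms F z,
        x.2 = z ∨ ∃ w ∈ Ms, x.2 = star w.2 := by
      intro Ms
      induction Ms with
      | nil => intro z x hx; simp only [crev, List.mem_singleton] at hx; exact Or.inl (by rw [hx])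
      | cons w Ms ih =>
        intro z x hx
        simp only [crev, List.mem_append, List.mem_singleton] at hx
        rcases hx with hx | rfl
        · rcases ih _ x hx with h1 | ⟨w', hw', h1⟩
          · exact Or.inr ⟨w, List.mem_cons_self .., h1⟩
          · exact Or.inr ⟨w', List.mem_cons_of_mem _ hw', h1⟩
        · exact Or.inl rfl
    rcases key Ms (star y.2) x hx with h1 | ⟨w, hw, h1⟩
    · exact ⟨y, List.mem_cons_self .., h1⟩
    · exact ⟨w, List.mem_cons_of_mem _ hw, h1⟩

lemma crev_ne_nil (Ms : List (CPos H r)) (F : (H →L[ℂ] H) × List (Site H r))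
    (z : H →L[ℂ] H) : crev Ms F z ≠ [] := by
  cases Ms <;> simp [crev]

lemma exists_last {Ms : List (CPos H r)} (hMs : CWGood hA Ω Ms) :
    ∃ pre F, Ms = pre ++ [F] ∧ (∀ x ∈ pre, CPos.Good hA x ∧ OrthN M A Ω x.2) ∧
      CPos.Good hA F := by
  obtain ⟨hne, hg, hN⟩ := hMs
  rcases List.eq_nil_or_concat Ms with h0 | ⟨pre, F, rfl⟩
  · exact absurd h0 hne
  · rw [List.concat_eq_append] at hg hN ⊢
    rw [List.dropLast_concat] at hN
    exact ⟨pre, F, rfl, fun x hx => ⟨hg x (List.mem_append_left _ hx), hN x hx⟩,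
      hg F (by simp)⟩

end

variable (h : FinSetting M A Ω)
include h

lemma tendsto_avg_zero {r : ℕ} {Ms : List (CPos H r)} (hMs : CWGood h.masa Ω Ms)
    {Φ Ψ : Fam h.masa r}
    (he : ∀ P f, ⟪Φ.at' P f, Ψ.at' P f⟫ = ⟪Ω, cword (bFam P f) Ms Ω⟫) : ⟪Φ, Ψ⟫ = 0 := by
  refine tendsto_nhds_unique (Fam.tendsto_inner Φ Ψ) ?_
  refine (tendsto_cword h hMs.1 hMs.2.1 hMs.2.2).congr (fun P => ?_)
  simp only [Fam.avg, he]

/-- Constants are asymptotically orthogonal to words. -/
lemma inner_cvec_cwvec {r : ℕ} {z : H →L[ℂ] H} (hz : z ∈ M) {Ms : List (CPos H r)}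
    (hMs : CWGood h.masa Ω Ms) : ⟪cvec h.masa Ω r z, cwvec h.masa Ω 1 Ms⟫ = 0 := by
  obtain ⟨pre, F, rfl, hpre, hF⟩ := exists_last hMs
  refine tendsto_avg_zero h (Ms := pre ++ [(F.1, F.2 * star z)]) ⟨by simp, ?_, ?_⟩
    (fun P f => ?_)
  · intro x hx
    simp only [List.mem_append, List.mem_singleton] at hx
    rcases hx with hx | rfl
    exacts [(hpre x hx).1, good_change hF (mul_mem hF.2.2.2.1 (star_mem hz))]
  · rw [List.dropLast_concat]; exact fun x hx => (hpre x hx).2
  · have hW := cword_mem_M (hA := h.masa) (bFam_mem P f) hMs.2.1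
    rw [cvec_at, cwvec_at _ hMs.2.1, one_mul, inner_eq h, h.tracial _ (star_mem hz) _ hW]
    simp only [cword_append, cword_cons, cword_nil, mul_one, mul_assoc]

/-- Words after an orthogonal element are orthogonal to words. -/
lemma inner_cwvec_cwvec {r : ℕ} {y : H →L[ℂ] H} (hy : y ∈ M) (hyN : OrthN M A Ω y)
    {Ns Ms : List (CPos H r)} (hNs : CWGood h.masa Ω Ns) (hMs : CWGood h.masa Ω Ms) :
    ⟪cwvec h.masa Ω y Ns, cwvec h.masa Ω 1 Ms⟫ = 0 := by
  obtain ⟨pre', G, rfl, hpre', hG⟩ := exists_last hNs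
  obtain ⟨pre, F, rfl, hpre, hF⟩ := exists_last hMs
  have hys : star y ∈ M := star_mem hy
  refine tendsto_avg_zero h
    (Ms := crev pre' G.1 (star y) ++ pre ++ [(F.1, F.2 * star G.2)]) ⟨by simp, ?_, ?_⟩
    (fun P f => ?_)
  · intro x hx
    simp only [List.mem_append, List.mem_singleton] at hx
    rcases hx with (hx | hx) | rfl
    exacts [good_crev (fun w hw => (hpre' w hw).1) hG hys x hx, (hpre x hx).1,
      good_change hF (mul_mem hF.2.2.2.1 (star_mem hG.2.2.2.1))]
  · rw [List.dropLast_concat]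
    intro x hx
    simp only [List.mem_append] at hx
    rcases hx with hx | hx
    swap
    · exact (hpre x hx).2
    rcases List.eq_nil_or_concat (crev pre' G.1 (star y)) with h0 | ⟨l, t, hlt⟩
    · exact absurd h0 (crev_ne_nil _ _ _)
    rw [List.concat_eq_append] at hlt
    rw [hlt, List.mem_append, List.mem_singleton] at hx
    rcases hx with hx | rfl
    · obtain ⟨w, hw, e⟩ := dropLast_crev pre' G.1 (star y) x
        (by rw [hlt, List.dropLast_concat]; exact hx)
      rw [e]
      exact orthN_star h (hpre' w hw).1.2.2.2.1 (hpre' w hw).2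
    · have : x.2 = star y := by
        cases pre' with
        | nil =>
          simp only [crev] at hlt
          have e := congrArg List.getLast? hlt
          rw [List.getLast?_concat] at e
          simp only [List.getLast?_singleton, Option.some.injEq] at e
          rw [← e]
        | cons p q =>
          simp only [crev] at hlt
          have e := (List.append_inj' hlt rfl).2
          simp only [List.cons.injEq, and_true] at e
          rw [← e]
      rw [this]
      exact orthN_star h hy hyN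
  · have hb := bFam_mem P f
    have hW := cword_mem_M (hA := h.masa) hb hMs.2.1
    have hrev := cword_mem_M (hA := h.masa) hb
      (good_crev (fun w hw => (hpre' w hw).1) hG hys)
    rw [cwvec_at _ hNs.2.1, cwvec_at _ hMs.2.1, inner_eq h, one_mul]
    have e1 : star (y * cword (bFam P f) (pre' ++ [G]))
        = star G.2 * cword (bFam P f) (crev pre' G.1 (star y)) := by
      rw [← star_cword_mul (hA := h.masa) hb (bFam_sa P f) (fun w hw => (hpre' w hw).1) hG.1
        hG.2.2.1 (star y)]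
      simp only [cword_append, cword_cons, cword_nil, mul_one, star_mul, mul_assoc]
    rw [e1, mul_assoc, h.tracial _ (star_mem hG.2.2.2.1) _ (mul_mem hrev hW)]
    simp only [cword_append, cword_cons, cword_nil, mul_one, mul_assoc]

end Vale.Agent.P078.Sharp
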