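import Vale.Agent.P078.Mix.Inclusions
import Vale.Agent.P078.Sharp.Mix.Spaces

/-!
# Invariance of the word spaces under a centred seed colour piece
-/

set_option linter.unusedSectionVars false

namespace Vale.Agent.P078.Sharp

open ComplexInnerProductSpace
open Filter Topology
open Vale.Agent.P078 Vale.Agent.P078.General Vale.Agent.P078.Finite
open scoped CStarAlgebra

universe u

variable {H : Type u} [NormedAddCommGroup H] [InnerProductSpace ℂ H] [CompleteSpace H]
variable {M : VonNeumannAlgebra H} {A : StarSubalgebra ℂ (H →L[ℂ] H)} {Ω : H} {r : ℕ}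

/-- Word vectors. -/
noncomputable def T1 (hA : IsMASAIn M A) (Ω : H) (r : ℕ) : Submodule ℂ (Fam hA r) :=
  Submodule.span ℂ {Φ | ∃ Ms : List (CPos H r), CWGood hA Ω Ms ∧ Φ = cwvec hA Ω 1 Ms}

/-- Orthogonal elements, possibly followed by a word. -/
noncomputable def T2 (hA : IsMASAIn M A) (Ω : H) (r : ℕ) : Submodule ℂ (Fam hA r) :=
  Submodule.span ℂ {Φ | ∃ y ∈ M, OrthN M A Ω y ∧
    (Φ = cvec hA Ω r y ∨ ∃ Ms : List (CPos H r), CWGood hA Ω Ms ∧ Φ = cwvec hA Ω y Ms)}

section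

variable {hA : IsMASAIn M A}

lemma at'_sub (Φ Ψ : Fam hA r) (P : Part A) (f : Fin P.n → Fin r) :
    (Φ - Ψ).at' P f = Φ.at' P f - Ψ.at' P f := rfl

/-- Eventual equality with a member of a submodule puts a family in its closure. -/
lemma mem_closure_of_eventually {S : Submodule ℂ (Fam hA r)} {Φ Ψ : Fam hA r} (hΨ : Ψ ∈ S)
    (he : ∀ᶠ P in (uf hA : Filter (Part A)), ∀ f, Φ.at' P f = Ψ.at' P f) :
    Φ ∈ S.topologicalClosure := by
  refine Metric.mem_closure_iff.2 (fun ε hε => ⟨Ψ, hΨ, ?_⟩)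
  rw [dist_eq_norm]
  refine lt_of_le_of_lt (Fam.norm_le_of_eventually le_rfl ?_) hε
  filter_upwards [he] with P hP f
  rw [at'_sub, hP f, sub_self, norm_zero]

/-- A sum of monomials applied to a family. -/
lemma exists_termSum_vec {S : Submodule ℂ (Fam hA r)}
    (v : ∀ P : Part A, (Fin P.n → Fin r) → H) :
    ∀ {L : List ((H →L[ℂ] H) × List (Site H r))},
      (∀ t ∈ L, ∃ Ψ ∈ S, ∀ᶠ P in (uf hA : Filter (Part A)), ∀ f,
        Ψ.at' P f = (t.1 * csProd (bFam P f) t.2) (v P f)) →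
      ∃ Ψ ∈ S, ∀ᶠ P in (uf hA : Filter (Part A)), ∀ f, Ψ.at' P f = termSum (bFam P f) L (v P f)
  | [], _ => ⟨0, zero_mem S, Filter.Eventually.of_forall (fun P f => by simp [termSum])⟩
  | t :: L, hL => by
    obtain ⟨Ψ, hΨ, he⟩ := hL t (List.mem_cons_self ..)
    obtain ⟨Ψ', hΨ', he'⟩ := exists_termSum_vec (S := S) v (L := L)
      (fun z hz => hL z (List.mem_cons_of_mem _ hz))
    refine ⟨Ψ + Ψ', add_mem hΨ hΨ', ?_⟩
    filter_upwards [he, he'] with P h1 h2 f
    rw [Fam.at'_add, h1, h2]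
    simp [termSum]

lemma cwgood_cons {t : (H →L[ℂ] H) × List (Site H r)} (ht : TermGood hA t) {y : H →L[ℂ] H}
    (hy : y ∈ M) {rest : List (CPos H r)} (hrest : ∀ x ∈ rest, CPos.Good hA x)
    (hN : ∀ x ∈ rest.dropLast, OrthN M A Ω x.2) (hyN : rest ≠ [] → OrthN M A Ω y) :
    CWGood hA Ω ((t, y) :: rest) := by
  refine ⟨by simp, fun x hx => ?_, fun x hx => ?_⟩
  · rcases List.mem_cons.1 hx with rfl | hx
    exacts [⟨ht.1, ht.2.1, ht.2.2.1, hy, ht.2.2.2⟩, hrest x hx]
  · by_cases hr : rest = []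
    · subst hr; simp at hx
    · rw [List.dropLast_cons_of_ne_nil hr] at hx
      rcases List.mem_cons.1 hx with rfl | hx
      exacts [hyN hr, hN x hx]

end

variable (h : FinSetting M A Ω)
include h

lemma cwvec_mem_T2 {y : H →L[ℂ] H} (hy : y ∈ M) (hyN : OrthN M A Ω y)
    {Ms : List (CPos H r)} (hMs : CWGood h.masa Ω Ms) :
    cwvec h.masa Ω y Ms ∈ T2 h.masa Ω r :=
  Submodule.subset_span ⟨y, hy, hyN, Or.inr ⟨Ms, hMs, rfl⟩⟩

lemma cvec_mem_S0T2 {z : H →L[ℂ] H} (hz : z ∈ M) :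
    cvec h.masa Ω r z ∈ S0 h.masa Ω r ⊔ T2 h.masa Ω r := by
  obtain ⟨n, hn, hrest⟩ := exists_decomp h hz
  rw [show z = n + (z - n) by abel, cvec_add]
  exact Submodule.add_mem_sup (Submodule.subset_span ⟨n, hn, rfl⟩)
    (Submodule.subset_span ⟨z - n, sub_mem hz hn.1, hrest, Or.inl rfl⟩)

/-- A normaliser times a word is a word. -/
lemma normaliser_cword_mem {v : H →L[ℂ] H} (hv : IsNormaliser M A v)
    {Ms : List (CPos H r)} (hMs : CWGood h.masa Ω Ms) :
    cwvec h.masa Ω v Ms ∈ T1 h.masa Ω r := by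
  have hA := h.masa
  obtain ⟨x, rest, rfl⟩ := List.exists_cons_of_ne_nil hMs.1
  obtain ⟨-, hgood, hN⟩ := hMs
  have hx := hgood x (List.mem_cons_self ..)
  have hvx : CPos.Good hA (ctranslate v x) := by
    refine ⟨hv.conj_mem hx.1, by simpa [ctranslate] using hx.2.1, ?_, mul_mem hv.mem hx.2.2.2.1, ?_⟩
    · intro u hu
      simp only [ctranslate, List.mem_map] at hu
      obtain ⟨u', hu', rfl⟩ := hu
      exact IsNormaliser.mul hA hv (hx.2.2.1 u' hu')
    · filter_upwards [hx.2.2.2.2] with P hP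
      simp only [ctranslate, CSep, Finite.Sep, List.map_map, List.pairwise_map] at hP ⊢
      refine List.Pairwise.imp_of_mem (fun {p q} hp hq hs i => ?_) hP
      have hpA := (hx.2.2.1 p hp).conj_mem (P.mem i)
      have hqA := (hx.2.2.1 q hq).conj_mem (P.mem i)
      have e1 : ∀ w : H →L[ℂ] H,
          v * w * P.e i * star (v * w) = v * (w * P.e i * star w) * star v := fun w => by
        rw [star_mul]; simp only [mul_assoc]
      simp only [Function.comp_apply]
      rw [e1, e1, hv.conj_mul hA hpA, hv.conj_mul hA hx.1, hs i, mul_zero, zero_mul]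
  have hW : CWGood hA Ω (ctranslate v x :: rest) := by
    refine ⟨by simp, fun z hz => ?_, fun z hz => ?_⟩
    · rcases List.mem_cons.1 hz with rfl | hz
      exacts [hvx, hgood z (List.mem_cons_of_mem _ hz)]
    · by_cases hr : rest = []
      · subst hr; simp at hz
      · rw [List.dropLast_cons_of_ne_nil hr] at hz
        rcases List.mem_cons.1 hz with rfl | hz
        · exact orthN_mul_left h ⟨hv.1, apply_mem_vecN (Submodule.subset_span hv)⟩
            (hN x (by rw [List.dropLast_cons_of_ne_nil hr]; exact List.mem_cons_self ..))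
        · exact hN z (by rw [List.dropLast_cons_of_ne_nil hr]; exact List.mem_cons_of_mem _ hz)
  refine Submodule.subset_span ⟨_, hW, Fam.ext' (fun P f => ?_)⟩
  rw [cwvec_at _ hgood, cwvec_at _ hW.2.1, one_mul, cword_cons, cword_cons, ← mul_assoc v,
    conj_mul_cword hA hv (bFam_mem P f) hx.1 hx.2.2.1]

/-- An element generated by normalisers times a word is a limit of words. -/
lemma inN_cword_mem {n : H →L[ℂ] H} (hn : InN M A Ω n)
    {Ms : List (CPos H r)} (hMs : CWGood h.masa Ω Ms) :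
    cwvec h.masa Ω n Ms ∈ (T1 h.masa Ω r).topologicalClosure := by
  have hspan : ∀ s ∈ spanN M A, cwvec h.masa Ω s Ms ∈ T1 h.masa Ω r := by
    intro s hs
    induction hs using Submodule.span_induction with
    | mem v hv => exact normaliser_cword_mem h hv hMs
    | zero =>
      rw [show cwvec h.masa Ω (0 : H →L[ℂ] H) Ms = 0 from
        Fam.ext' (fun P f => by simp [cwvec_at _ hMs.2.1])]
      exact zero_mem _
    | add a b _ _ ha hb => rw [cwvec_add _ _ hMs.2.1]; exact add_mem ha hb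
    | smul k a _ ha => rw [cwvec_smul _ _ hMs.2.1]; exact Submodule.smul_mem _ _ ha
  obtain ⟨C, hC0, hC⟩ := exists_cword_bound hMs.2.1
  refine Metric.mem_closure_iff.2 (fun η hη => ?_)
  obtain ⟨s, hs, hd⟩ := hn.exists_approx (show 0 < η / (C + 1) by positivity)
  refine ⟨_, hspan s hs, ?_⟩
  rw [dist_eq_norm]
  have hle : ‖cwvec h.masa Ω n Ms - cwvec h.masa Ω s Ms‖ ≤ C * ‖(n - s) Ω‖ := by
    have e : cwvec h.masa Ω n Ms - cwvec h.masa Ω s Ms = cwvec h.masa Ω (n - s) Ms := by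
      rw [sub_eq_iff_eq_add, ← cwvec_add _ _ hMs.2.1, sub_add_cancel]
    rw [e]
    refine Fam.norm_le_of_eventually (by positivity) (Filter.Eventually.of_forall (fun P f => ?_))
    rw [cwvec_at _ hMs.2.1]
    refine (norm_mul_right_le h (sub_mem hn.1 (spanN_mem_M hs))
      (cword_mem_M (bFam_mem P f) hMs.2.1)).trans ?_
    exact mul_le_mul_of_nonneg_right (hC P f) (norm_nonneg _)
  refine lt_of_le_of_lt (hle.trans (mul_le_mul_of_nonneg_right (by linarith : C ≤ C + 1)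
    (norm_nonneg _))) ?_
  calc (C + 1) * ‖(n - s) Ω‖ < (C + 1) * (η / (C + 1)) := mul_lt_mul_of_pos_left hd (by positivity)
    _ = η := by field_simp

section

variable {L : List ((H →L[ℂ] H) × List (Site H r))} (hL : ∀ t ∈ L, TermGood h.masa t)
include hL

lemma termSum_cvec {z : H →L[ℂ] H} (hz : z ∈ M) :
    ∃ Ψ ∈ T1 h.masa Ω r, ∀ᶠ P in (uf h.masa : Filter (Part A)), ∀ f,
      Ψ.at' P f = termSum (bFam P f) L (z Ω) := by
  refine exists_termSum_vec (fun _ _ => z Ω) (fun t ht => ?_)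
  have hW : CWGood h.masa Ω [(t, z)] :=
    cwgood_cons (hL t ht) hz (by simp) (by simp) (fun hc => absurd rfl hc)
  exact ⟨_, Submodule.subset_span ⟨_, hW, rfl⟩, Filter.Eventually.of_forall (fun P f => by
    rw [cwvec_at _ hW.2.1]; simp [cword])⟩

lemma termSum_cwvec {y : H →L[ℂ] H} (hy : y ∈ M) (hyN : OrthN M A Ω y) {Ms : List (CPos H r)}
    (hMs : CWGood h.masa Ω Ms) :
    ∃ Ψ ∈ T1 h.masa Ω r, ∀ᶠ P in (uf h.masa : Filter (Part A)), ∀ f,
      Ψ.at' P f = termSum (bFam P f) L ((y * cword (bFam P f) Ms) Ω) := by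
  refine exists_termSum_vec (fun P f => (y * cword (bFam P f) Ms) Ω) (fun t ht => ?_)
  have hW : CWGood h.masa Ω ((t, y) :: Ms) :=
    cwgood_cons (hL t ht) hy hMs.2.1 hMs.2.2 (fun _ => hyN)
  exact ⟨_, Submodule.subset_span ⟨_, hW, rfl⟩, Filter.Eventually.of_forall (fun P f => by
    rw [cwvec_at _ hW.2.1]; simp [cword, mul_assoc])⟩

lemma termSum_word {Ms : List (CPos H r)} (hMs : CWGood h.masa Ω Ms) :
    ∃ Ψ ∈ T1 h.masa Ω r ⊔ (S0 h.masa Ω r ⊔ T2 h.masa Ω r),
      ∀ᶠ P in (uf h.masa : Filter (Part A)), ∀ f,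
        Ψ.at' P f = termSum (bFam P f) L (cword (bFam P f) Ms Ω) := by
  have hA := h.masa
  obtain ⟨⟨⟨a0, T0⟩, y⟩, rest, rfl⟩ := List.exists_cons_of_ne_nil hMs.1
  obtain ⟨-, hgood, hN⟩ := hMs
  obtain ⟨ha0, hT0ne, hT0, hy, hsep0⟩ := hgood _ (List.mem_cons_self ..)
  simp only at ha0 hT0ne hT0 hy hsep0
  have hrest : ∀ x ∈ rest, CPos.Good hA x := fun x hx => hgood x (List.mem_cons_of_mem _ hx)
  have hNr : ∀ x ∈ rest.dropLast, OrthN M A Ω x.2 := fun x hx => hN x (by
    rw [List.dropLast_cons_of_ne_nil (fun e => by simp [e] at hx)]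
    exact List.mem_cons_of_mem _ hx)
  have hyN : rest ≠ [] → OrthN M A Ω y := fun hr => hN ((a0, T0), y) (by
    rw [List.dropLast_cons_of_ne_nil hr]; exact List.mem_cons_self ..)
  refine exists_termSum_vec
    (fun P f => cword (bFam P f) (((a0, T0), y) :: rest) Ω) (fun t ht => ?_)
  obtain ⟨α, hα, L', hL', hev⟩ := isNormal_mul_monomial h (hL t ht).1 (t := (a0, T0))
    ⟨ha0, hT0ne, hT0, hsep0⟩ (hL t ht).2.2.1
  have hαy : α * y ∈ M := mul_mem (hA.mem_M hα) hy
  obtain ⟨Ψ₀, hΨ₀, he₀⟩ : ∃ Ψ ∈ S0 hA Ω r ⊔ T2 hA Ω r, ∀ (P : Part A) (f : Fin P.n → Fin r),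
      Ψ.at' P f = (α * y * cword (bFam P f) rest) Ω := by
    by_cases hr : rest = []
    · exact ⟨_, cvec_mem_S0T2 h hαy, fun P f => by rw [cvec_at, hr, cword_nil, mul_one]⟩
    · exact ⟨_, Submodule.mem_sup_right (cwvec_mem_T2 h hαy
        (orthN_mul_left h (inN_of_mem h hα) (hyN hr)) ⟨hr, hrest, hNr⟩),
        fun P f => by rw [cwvec_at _ hrest]⟩
  obtain ⟨Ψ₁, hΨ₁, he₁⟩ := exists_termSum_vec (S := T1 hA Ω r)
    (fun P f => (y * cword (bFam P f) rest) Ω) (L := L') (fun s hs => by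
    have hW : CWGood hA Ω ((s, y) :: rest) := cwgood_cons (hL' s hs) hy hrest hNr hyN
    exact ⟨_, Submodule.subset_span ⟨_, hW, rfl⟩, Filter.Eventually.of_forall (fun P f => by
      rw [cwvec_at _ hW.2.1]; simp [cword, mul_assoc])⟩)
  refine ⟨Ψ₁ + Ψ₀, Submodule.add_mem_sup hΨ₁ hΨ₀, ?_⟩
  filter_upwards [hev, he₁] with P h1 h2 f
  rw [Fam.at'_add, h2, he₀, cword_cons]
  have e := congrArg (fun Z : H →L[ℂ] H => (Z * (y * cword (bFam P f) rest)) Ω) (h1 f)
  simp only [add_mul, add_apply, mul_apply_eq_comp] at e ⊢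
  rw [e, add_comm]

end

/-- Multiplication by a centred piece maps word vectors into the spaces. -/
theorem piece_bound {w : H →L[ℂ] H} (hw : w ∈ M) (hw1 : ‖w‖ ≤ 1) (hN : OrthN M A Ω w) (hr : 1 ≤ r)
    {X : ∀ P : Part A, (Fin P.n → Fin r) → (H →L[ℂ] H)} (hXn : ∀ P f, ‖X P f‖ ≤ 1)
    (hXs : ∀ P f, IsSelfAdjoint (X P f))
    (hX2 : ∀ P f, X P f * X P f = ((1 - 2 / r : ℝ) : ℂ) • X P f
      + (((1 / r) * (1 - 1 / r) : ℝ) : ℂ) • (1 : H →L[ℂ] H))
    {L : List ((H →L[ℂ] H) × List (Site H r))} (hL : ∀ t ∈ L, TermGood h.masa t)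
    (hev : ∀ᶠ P in (uf h.masa : Filter (Part A)), ∀ f, X P f = termSum (bFam P f) L) :
    ∀ v ∈ (T1 h.masa Ω r ⊔ (S0 h.masa Ω r ⊔ T2 h.masa Ω r)).topologicalClosure,
      ((1 / r : ℝ) • Wop h.masa r hw1 ((1 / r : ℝ) • v + Fam.mulOp X hXn v)
        + Fam.mulOp X hXn (Wop h.masa r hw1 ((1 / r : ℝ) • v + Fam.mulOp X hXn v)))
          ∈ (T1 h.masa Ω r ⊔ (S0 h.masa Ω r ⊔ T2 h.masa Ω r)).topologicalClosure ∧
      ‖(1 / r : ℝ) • Wop h.masa r hw1 ((1 / r : ℝ) • v + Fam.mulOp X hXn v)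
        + Fam.mulOp X hXn (Wop h.masa r hw1 ((1 / r : ℝ) • v + Fam.mulOp X hXn v))‖
        ≤ ((1 / r : ℝ) ^ 2 + 2 * (1 / r) + 2 * Real.sqrt ((1 / r) * (1 - 1 / r))) * ‖v‖ := by
  have hA := h.masa
  set B := Fam.mulOp (hA := hA) X hXn
  have hr1 : (1 : ℝ) ≤ r := by exact_mod_cast hr
  have hvar : (0 : ℝ) ≤ (1 / r) * (1 - 1 / r) := by
    have : (1 : ℝ) / r ≤ 1 := (div_le_one (by linarith)).2 hr1
    exact mul_nonneg (by positivity) (by linarith)
  have hBs : ∀ Φ Ψ : Fam hA r, ⟪B Φ, Ψ⟫ = ⟪Φ, B Ψ⟫ := fun Φ Ψ => by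
    refine tendsto_nhds_unique (Fam.tendsto_inner _ Ψ) ((Fam.tendsto_inner Φ _).congr (fun P => ?_))
    simp only [Fam.avg, B, Fam.mulOp_at, sa_inner (hXs P _)]
  have hB2 : ∀ Φ Ψ : Fam hA r, ⟪B Φ, B Ψ⟫ = ((1 - 2 / r : ℝ) : ℂ) * ⟪Φ, B Ψ⟫
      + ((Real.sqrt ((1 / r) * (1 - 1 / r)) ^ 2 : ℝ) : ℂ) * ⟪Φ, Ψ⟫ := fun Φ Ψ => by
    rw [Real.sq_sqrt hvar]
    refine tendsto_nhds_unique (Fam.tendsto_inner (B Φ) (B Ψ))
      ((((Fam.tendsto_inner Φ (B Ψ)).const_mul _).add
        ((Fam.tendsto_inner Φ Ψ).const_mul _)).congr (fun P => ?_))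
    simp only [Fam.avg, B, Fam.mulOp_at]
    rw [mul_left_comm, mul_left_comm _ (_⁻¹), ← mul_add, Finset.mul_sum, Finset.mul_sum,
      ← Finset.sum_add_distrib]
    congr 1
    refine Finset.sum_congr rfl (fun f _ => ?_)
    rw [sa_inner (hXs P f),
      show X P f (X P f (Ψ.at' P f)) = (X P f * X P f) (Ψ.at' P f) from rfl,
      hX2, add_apply, smul_apply, smul_apply, inner_add_right, inner_smul_right,
      inner_smul_right, one_apply_eq_self]
  have hzero : ∀ {Φ Ψ : Fam hA r},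
      (∀ᶠ P in (uf hA : Filter (Part A)), ∀ f, Φ.at' P f = Ψ.at' P f) →
      Φ - Ψ ∈ (T1 hA Ω r).topologicalClosure := fun he =>
    mem_closure_of_eventually (zero_mem _) (by
      filter_upwards [he] with P hP f
      rw [at'_sub, hP f, sub_self, Fam.at'_zero])
  refine norm_sandwich_le (α := 1 - 2 / r) hBs (Fam.norm_mulOp_le _) (Fam.norm_mulOp_le _)
    (Real.sqrt_nonneg _) (by positivity) hB2
    (D0 := S0 h.masa Ω r) (D1 := T1 h.masa Ω r) (D2 := T2 h.masa Ω r)
    ?_ ?_ ?_ ?_ ?_ ?_ ?_ ?_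
  · intro x hx z hz
    induction hx using Submodule.span_induction with
    | mem v hv =>
      obtain ⟨n, hn, rfl⟩ := hv
      induction hz using Submodule.span_induction with
      | mem u hu =>
        obtain ⟨Ms, hMs, rfl⟩ := hu
        exact inner_cvec_cwvec h hn.1 hMs
      | zero => exact inner_zero_right _
      | add a b _ _ ha hb => rw [inner_add_right, ha, hb, add_zero]
      | smul k a _ ha => rw [inner_smul_right, ha, mul_zero]
    | zero => exact inner_zero_left _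
    | add a b _ _ ha hb => rw [inner_add_left, ha, hb, add_zero]
    | smul k a _ ha => rw [inner_smul_left, ha, mul_zero]
  · intro x hx z hz
    induction hx using Submodule.span_induction with
    | mem v hv =>
      obtain ⟨y, hy, hyN, hv⟩ := hv
      induction hz using Submodule.span_induction with
      | mem u hu =>
        obtain ⟨Ms, hMs, rfl⟩ := hu
        rcases hv with rfl | ⟨Ns, hNs, rfl⟩
        exacts [inner_cvec_cwvec h hy hMs, inner_cwvec_cwvec h hy hyN hNs hMs]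
      | zero => exact inner_zero_right _
      | add a b _ _ ha hb => rw [inner_add_right, ha, hb, add_zero]
      | smul k a _ ha => rw [inner_smul_right, ha, mul_zero]
    | zero => exact inner_zero_left _
    | add a b _ _ ha hb => rw [inner_add_left, ha, hb, add_zero]
    | smul k a _ ha => rw [inner_smul_left, ha, mul_zero]
  · intro x hx
    refine (Submodule.span_le (p := (T1 hA Ω r).topologicalClosure.comap B.toLinearMap)).2 ?_ hx
    rintro _ ⟨n, hn, rfl⟩
    obtain ⟨Ψ, hΨ, he⟩ := termSum_cvec h hL hn.1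
    refine mem_closure_of_eventually hΨ ?_
    filter_upwards [hev, he] with P h1 h2 f
    rw [h2, ← h1]
    change X P f ((cvec hA Ω r n).at' P f) = _
    rw [cvec_at]
  · intro x hx
    refine (Submodule.span_le (p := (T1 hA Ω r).topologicalClosure.comap B.toLinearMap)).2 ?_ hx
    rintro _ ⟨y, hy, hyN, rfl | ⟨Ms, hMs, rfl⟩⟩
    · obtain ⟨Ψ, hΨ, he⟩ := termSum_cvec h hL hy
      refine mem_closure_of_eventually hΨ ?_
      filter_upwards [hev, he] with P h1 h2 f
      rw [h2, ← h1]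
      change X P f ((cvec hA Ω r y).at' P f) = _
      rw [cvec_at]
    · obtain ⟨Ψ, hΨ, he⟩ := termSum_cwvec h hL hy hyN hMs
      refine mem_closure_of_eventually hΨ ?_
      filter_upwards [hev, he] with P h1 h2 f
      rw [h2, ← h1]
      change X P f ((cwvec hA Ω y Ms).at' P f) = _
      rw [cwvec_at _ hMs.2.1]
  · intro x hx
    refine (Submodule.span_le (p := ((T1 hA Ω r).topologicalClosure ⊔
      (S0 hA Ω r ⊔ T2 hA Ω r).topologicalClosure).comap B.toLinearMap)).2 ?_ hx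
    rintro _ ⟨Ms, hMs, rfl⟩
    obtain ⟨Ψ, hΨ, he⟩ := termSum_word h hL hMs
    have hd : B (cwvec hA Ω 1 Ms) - Ψ ∈ (T1 hA Ω r).topologicalClosure := hzero (by
      filter_upwards [hev, he] with P h1 h2 f
      rw [h2, ← h1]
      change X P f ((cwvec hA Ω 1 Ms).at' P f) = _
      rw [cwvec_at _ hMs.2.1, one_mul])
    change B (cwvec hA Ω 1 Ms) ∈ (T1 hA Ω r).topologicalClosure ⊔
      (S0 hA Ω r ⊔ T2 hA Ω r).topologicalClosure
    rw [← sub_add_cancel (B (cwvec hA Ω 1 Ms)) Ψ]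
    obtain ⟨a, ha, b, hb, hab⟩ := Submodule.mem_sup.1 hΨ
    refine add_mem (Submodule.mem_sup_left hd) (hab ▸ Submodule.add_mem_sup
      (Submodule.le_topologicalClosure _ ha) (Submodule.le_topologicalClosure _ hb))
  · intro x hx
    exact Submodule.le_topologicalClosure _
      ((Submodule.span_le (p := (T2 hA Ω r).comap (Wop hA r hw1).toLinearMap)).2 (by
        rintro _ ⟨n, hn, rfl⟩
        have e : Wop hA r hw1 (cvec hA Ω r n) = cvec hA Ω r (w * n) :=
          Fam.ext' (fun P f => by rw [Wop_at, cvec_at, cvec_at]; rfl)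
        change Wop hA r hw1 (cvec hA Ω r n) ∈ T2 hA Ω r
        rw [e]
        exact Submodule.subset_span ⟨w * n, mul_mem hw hn.1, orthN_mul_right h hn hw hN,
          Or.inl rfl⟩) hx)
  · intro x hx
    exact Submodule.le_topologicalClosure _
      ((Submodule.span_le (p := (T2 hA Ω r).comap (Wop hA r hw1).toLinearMap)).2 (by
        rintro _ ⟨Ms, hMs, rfl⟩
        have e : Wop hA r hw1 (cwvec hA Ω 1 Ms) = cwvec hA Ω w Ms :=
          Fam.ext' (fun P f => by
            rw [Wop_at, cwvec_at _ hMs.2.1, cwvec_at _ hMs.2.1, one_mul]; rfl)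
        change Wop hA r hw1 (cwvec hA Ω 1 Ms) ∈ T2 hA Ω r
        rw [e]
        exact cwvec_mem_T2 h hw hN hMs) hx)
  · intro x hx
    exact (Submodule.span_le (p := ((T1 hA Ω r ⊔ (S0 hA Ω r ⊔ T2 hA Ω r)).topologicalClosure).comap
      (Wop hA r hw1).toLinearMap)).2 (by
        rintro _ ⟨y, hy, hyN, rfl | ⟨Ms, hMs, rfl⟩⟩
        · have e : Wop hA r hw1 (cvec hA Ω r y) = cvec hA Ω r (w * y) :=
            Fam.ext' (fun P f => by rw [Wop_at, cvec_at, cvec_at]; rfl)
          change Wop hA r hw1 (cvec hA Ω r y) ∈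
            (T1 hA Ω r ⊔ (S0 hA Ω r ⊔ T2 hA Ω r)).topologicalClosure
          rw [e]
          exact Submodule.le_topologicalClosure _
            (Submodule.mem_sup_right (cvec_mem_S0T2 h (mul_mem hw hy)))
        · have e : Wop hA r hw1 (cwvec hA Ω y Ms) = cwvec hA Ω (w * y) Ms :=
            Fam.ext' (fun P f => by
              rw [Wop_at, cwvec_at _ hMs.2.1, cwvec_at _ hMs.2.1, mul_assoc w y]; rfl)
          obtain ⟨n, hn, hrest⟩ := exists_decomp h (mul_mem hw hy)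
          change Wop hA r hw1 (cwvec hA Ω y Ms) ∈
            (T1 hA Ω r ⊔ (S0 hA Ω r ⊔ T2 hA Ω r)).topologicalClosure
          rw [e, show w * y = n + (w * y - n) by abel, cwvec_add _ _ hMs.2.1]
          exact add_mem (Submodule.topologicalClosure_mono le_sup_left (inN_cword_mem h hn hMs))
            (Submodule.le_topologicalClosure _ (Submodule.mem_sup_right (Submodule.mem_sup_right
              (cwvec_mem_T2 h (sub_mem (mul_mem hw hy) hn.1) hrest hMs))))) hx

end Vale.Agent.P078.Sharp
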