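import Vale.Agent.P078.Mix.Main
import Vale.Agent.P078.Sharp.Mix.Inclusions

/-!
# Paving the part orthogonal to the normalisers by a seed colouring
-/

set_option linter.unusedSectionVars false

namespace Vale.Agent.P078.Sharp

open ComplexInnerProductSpace
open Filter Topology
open Vale.Agent.P078 Vale.Agent.P078.General Vale.Agent.P078.Finite
open scoped CStarAlgebra

universe u

variable {H : Type u} [NormedAddCommGroup H] [InnerProductSpace ℂ H] [CompleteSpace H]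
variable {M : VonNeumannAlgebra H} {A : StarSubalgebra ℂ (H →L[ℂ] H)} {Ω : H}

lemma centred_sa {p : H →L[ℂ] H} (s : ℝ) (hp : IsStarProjection p) :
    IsSelfAdjoint (p - (s : ℂ) • 1) := by
  change star (p - (s : ℂ) • 1) = _
  simp [hp.isSelfAdjoint.star_eq]

lemma centred_sq {p : H →L[ℂ] H} (r : ℕ) (hp : IsStarProjection p) :
    (p - ((1 / r : ℝ) : ℂ) • 1) * (p - ((1 / r : ℝ) : ℂ) • 1)
      = ((1 - 2 / r : ℝ) : ℂ) • (p - ((1 / r : ℝ) : ℂ) • 1)
        + (((1 / r) * (1 - 1 / r) : ℝ) : ℂ) • (1 : H →L[ℂ] H) := by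
  simp only [sub_mul, mul_sub, mul_smul_comm, smul_mul_assoc, mul_one, one_mul, smul_sub,
    smul_smul, hp.isIdempotentElem.eq]
  push_cast
  module

lemma norm_centred_le {p : H →L[ℂ] H} {r : ℕ} (hp : IsStarProjection p) (hr : 0 < r) :
    ‖p - ((1 / r : ℝ) : ℂ) • (1 : H →L[ℂ] H)‖ ≤ 1 := by
  set X := p - ((1 / r : ℝ) : ℂ) • (1 : H →L[ℂ] H) with hX
  by_contra hlt
  rw [not_le] at hlt
  have hsq : ‖X‖ * ‖X‖ = ‖X * X‖ := by
    rw [← CStarRing.norm_star_mul_self, (centred_sa (1 / r) hp).star_eq]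
  rw [hX, centred_sq r hp, ← hX] at hsq
  have h1 := norm_add_le (((1 - 2 / r : ℝ) : ℂ) • X)
    ((((1 / r) * (1 - 1 / r) : ℝ) : ℂ) • (1 : H →L[ℂ] H))
  rw [← hsq, norm_smul, norm_smul, Complex.norm_real, Complex.norm_real, Real.norm_eq_abs,
    Real.norm_eq_abs] at h1
  have hone : ‖(1 : H →L[ℂ] H)‖ ≤ 1 := (IsStarProjection.one (H →L[ℂ] H)).norm_le
  have hr1 : (1 : ℝ) / r ≤ 1 := (div_le_one (by exact_mod_cast hr)).2 (by exact_mod_cast hr)
  have h0 : (0 : ℝ) ≤ 1 / r := by positivity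
  have hab : |1 - 2 / (r : ℝ)| + |1 / (r : ℝ) * (1 - 1 / r)| ≤ 1 := by
    rw [abs_of_nonneg (mul_nonneg h0 (by linarith : (0 : ℝ) ≤ 1 - 1 / r))]
    have e : (2 : ℝ) / r = 2 * (1 / r) := by ring
    rcases Nat.lt_or_ge r 2 with h2 | h2
    · obtain rfl : r = 1 := by omega
      norm_num
    · have : (1 : ℝ) / r ≤ 1 / 2 := one_div_le_one_div_of_le two_pos (by exact_mod_cast h2)
      rw [abs_of_nonneg (by linarith)]
      nlinarith
  have h2 : |1 / (r : ℝ) * (1 - 1 / r)| * ‖(1 : H →L[ℂ] H)‖ ≤ |1 / (r : ℝ) * (1 - 1 / r)| * ‖X‖ :=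
    mul_le_mul_of_nonneg_left (hone.trans hlt.le) (abs_nonneg _)
  nlinarith [mul_le_mul_of_nonneg_right hab (norm_nonneg X)]

variable (h : FinSetting M A Ω)
include h

/-- The average moment of one colour. -/
lemma eventually_seed_moment {r : ℕ} (c : Fin r) {w : H →L[ℂ] H} (hw : w ∈ M) (hw1 : ‖w‖ ≤ 1)
    (hN : OrthN M A Ω w) {N : ℕ} {u : Fin N → H →L[ℂ] H} (hu : ∀ i, IsNormaliser M A (u i))
    {coef : (Fin N → Fin r) → Fin r → H →L[ℂ] H} (hcoef : ∀ κ c, coef κ c ∈ A)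
    (hproj : ∀ (P : Part A) (f : Fin P.n → Fin r), IsStarProjection (seedPiece P u coef f c))
    (hunif : ∀ P : Part A, ∑ f : Fin P.n → Fin r, seedPiece P u coef f c
      = ((Fintype.card (Fin P.n → Fin r) : ℂ) / r) • 1)
    (k : ℕ) {ε : ℝ} (hε : 0 < ε) :
    ∀ᶠ P in (uf h.masa : Filter (Part A)),
      ((Fintype.card (Fin P.n → Fin r) : ℝ))⁻¹ *
        ∑ f : Fin P.n → Fin r, ‖((seedPiece P u coef f c * w * seedPiece P u coef f c) ^ k) Ω‖ ^ 2
        ≤ ((5 / Real.sqrt r) ^ k * ‖Ω‖) ^ 2 + ε := by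
  have hA := h.masa
  set X : ∀ P : Part A, (Fin P.n → Fin r) → (H →L[ℂ] H) := fun P f =>
    seedPiece P u coef f c - ((1 / r : ℝ) : ℂ) • 1 with hX
  obtain ⟨L, hL, hev⟩ := exists_centred h hu hcoef c hunif
  have hX2 : ∀ P f, X P f * X P f = ((1 - 2 / r : ℝ) : ℂ) • X P f
      + (((1 / r) * (1 - 1 / r) : ℝ) : ℂ) • (1 : H →L[ℂ] H) := fun P f => centred_sq _ (hproj P f)
  have hXs : ∀ P f, IsSelfAdjoint (X P f) := fun P f => centred_sa _ (hproj P f)
  have hXn : ∀ P f, ‖X P f‖ ≤ 1 := fun P f => norm_centred_le (hproj P f) c.pos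
  set T : Fam hA r → Fam hA r := fun v => (1 / r : ℝ) • Wop hA r hw1 ((1 / r : ℝ) • v
      + Fam.mulOp X hXn v)
    + Fam.mulOp X hXn (Wop hA r hw1 ((1 / r : ℝ) • v + Fam.mulOp X hXn v)) with hT
  set C := (5 / Real.sqrt r : ℝ) with hC
  have hr1 : (1 : ℝ) ≤ r := by exact_mod_cast c.pos
  have hCle : (1 / r : ℝ) ^ 2 + 2 * (1 / r) + 2 * Real.sqrt ((1 / r) * (1 - 1 / r)) ≤ C := by
    have hs : 1 ≤ Real.sqrt r := Real.one_le_sqrt.2 hr1
    have hss : Real.sqrt r * Real.sqrt r = r := Real.mul_self_sqrt (by linarith)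
    have h1 : (1 : ℝ) / r ≤ 1 / Real.sqrt r :=
      one_div_le_one_div_of_le (by linarith) (by nlinarith)
    have h2 : (1 : ℝ) / r ≤ 1 := (div_le_one (by linarith)).2 hr1
    have h3 : (0 : ℝ) ≤ 1 / r := by positivity
    have h4 : Real.sqrt ((1 / r) * (1 - 1 / r)) ≤ 1 / Real.sqrt r := by
      rw [Real.sqrt_le_left (by positivity), div_pow, one_pow, Real.sq_sqrt (by linarith)]
      exact mul_le_of_le_one_right h3 (by linarith)
    have h5 : C = 5 * (1 / Real.sqrt r) := by rw [hC]; ring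
    rw [h5]
    nlinarith
  have hv0 : cvec hA Ω r 1 ∈
      (T1 hA Ω r ⊔ (S0 hA Ω r ⊔ T2 hA Ω r)).topologicalClosure :=
    Submodule.le_topologicalClosure _ (Submodule.mem_sup_right (Submodule.mem_sup_left
      (Submodule.subset_span ⟨1, inN_of_mem h (one_mem A), rfl⟩)))
  have hiter : ∀ n, T^[n] (cvec hA Ω r 1) ∈
      (T1 hA Ω r ⊔ (S0 hA Ω r ⊔ T2 hA Ω r)).topologicalClosure ∧
      ‖T^[n] (cvec hA Ω r 1)‖ ≤ C ^ n * ‖Ω‖ := by
    intro n
    induction n with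
    | zero =>
      refine ⟨hv0, ?_⟩
      rw [Function.iterate_zero, id, pow_zero, one_mul]
      exact Fam.norm_le_of_eventually (norm_nonneg _)
        (Filter.Eventually.of_forall (fun P f => by rw [cvec_at, one_apply_eq_self]))
    | succ n ih =>
      obtain ⟨hm, hn⟩ := piece_bound h hw hw1 hN c.pos hXn hXs hX2 hL hev _ ih.1
      rw [Function.iterate_succ_apply']
      refine ⟨hm, hn.trans ?_⟩
      rw [pow_succ' C n, mul_assoc]
      exact mul_le_mul hCle ih.2 (norm_nonneg _) (by positivity)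
  have hstep : ∀ (v : Fam hA r) (P : Part A) (f : Fin P.n → Fin r),
      (T v).at' P f = (seedPiece P u coef f c * w * seedPiece P u coef f c) (v.at' P f) := fun v P f => by
    simp only [hT, ← Complex.coe_smul, Fam.at'_add, Fam.at'_smul, Fam.mulOp_at, Wop_at, hX, mul_apply_eq_comp, sub_apply, smul_apply, one_apply_eq_self]
    simp only [map_add, map_sub, map_smul]
    module
  have hat : ∀ n (P : Part A) (f : Fin P.n → Fin r),
      (T^[n] (cvec hA Ω r 1)).at' P f = ((seedPiece P u coef f c * w * seedPiece P u coef f c) ^ n) Ω := by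
    intro n P f
    induction n with
    | zero => rw [Function.iterate_zero, id, cvec_at, pow_zero]
    | succ n ih =>
      rw [Function.iterate_succ_apply', hstep, ih, pow_succ']
      rfl
  have hlim := (T^[k] (cvec hA Ω r 1)).tendsto_norm_sq
  have hlt : ‖T^[k] (cvec hA Ω r 1)‖ ^ 2 < (C ^ k * ‖Ω‖) ^ 2 + ε :=
    lt_of_le_of_lt (pow_le_pow_left₀ (norm_nonneg _) (hiter k).2 2) (by linarith)
  filter_upwards [hlim.eventually (gt_mem_nhds hlt)] with P hP
  simp only [← hat]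
  exact hP.le

omit h in
lemma pow_sum_orth {r : ℕ} {q : Fin r → (H →L[ℂ] H)} (ho : ∀ i j, i ≠ j → q i * q j = 0)
    (w : H →L[ℂ] H) (m : ℕ) :
    (∑ c, q c * w * q c) ^ (m + 1)
      = ∑ c, (q c * w * q c) ^ (m + 1) := by
  induction m with
  | zero => simp
  | succ m ih =>
    rw [pow_succ', ih, Finset.sum_mul]
    refine Finset.sum_congr rfl (fun i _ => ?_)
    rw [Finset.mul_sum, Finset.sum_eq_single i _ (by simp), ← pow_succ']
    intro j _ hj
    rw [pow_succ']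
    simp only [← mul_assoc]
    rw [mul_assoc (q i * w), ho i j (Ne.symm hj)]
    simp

/-- **Paving of the mixing part by a seed colouring.** -/
theorem mix_pave_seeded {w : H →L[ℂ] H} (hw : w ∈ M) (hws : IsSelfAdjoint w) (hw1 : ‖w‖ ≤ 1)
    (hN : OrthN M A Ω w) {r : ℕ} (hr : 1 ≤ r) {N : ℕ} (u : Fin N → H →L[ℂ] H)
    (hu : ∀ i, IsNormaliser M A (u i) ∧ star (u i) * u i = 1 ∧ u i * star (u i) = 1)
    (coef : (Fin N → Fin r) → Fin r → H →L[ℂ] H) (hcoef : ∀ κ c, coef κ c ∈ A)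
    (hproj : ∀ (P : Part A) (f : Fin P.n → Fin r) c, IsStarProjection (seedPiece P u coef f c))
    (horth : ∀ (P : Part A) (f : Fin P.n → Fin r) c d, c ≠ d →
      seedPiece P u coef f c * seedPiece P u coef f d = 0)
    (htot : ∀ (P : Part A) (f : Fin P.n → Fin r), ∑ c, seedPiece P u coef f c = 1)
    (hunif : ∀ (P : Part A) c, ∑ f : Fin P.n → Fin r, seedPiece P u coef f c
        = ((Fintype.card (Fin P.n → Fin r) : ℂ) / r) • 1) {η : ℝ} (hη : 0 < η) :
    ∃ (P : Part A) (f : Fin P.n → Fin r), ∃ z ∈ M, IsSelfAdjoint z ∧ ‖z‖ ≤ 8 / Real.sqrt r ∧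
      ‖((∑ c, seedPiece P u coef f c * w * seedPiece P u coef f c) - z) Ω‖ ≤ η := by
  have _ := htot
  have hA := h.masa
  have hr0 : (0 : ℝ) < r := by exact_mod_cast hr
  set t := (8 / Real.sqrt r : ℝ) with ht
  have ht0 : 0 < t := by positivity
  set C := (5 / Real.sqrt r : ℝ) with hC
  have hC0 : 0 ≤ C := by positivity
  obtain ⟨m, hm⟩ : ∃ m : ℕ, r * ((C * ‖Ω‖) ^ 2 * ((5 / 8 : ℝ) ^ 2) ^ m) ≤ η ^ 2 / 2 := by
    have hlim := ((tendsto_pow_atTop_nhds_zero_of_lt_one (by norm_num : (0 : ℝ) ≤ (5 / 8) ^ 2)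
      (by norm_num : ((5 : ℝ) / 8) ^ 2 < 1)).const_mul ((C * ‖Ω‖) ^ 2)).const_mul (r : ℝ)
    rw [mul_zero, mul_zero] at hlim
    exact (hlim.eventually (ge_mem_nhds (by positivity : (0 : ℝ) < η ^ 2 / 2))).exists
  set ε := (t ^ m) ^ 2 * η ^ 2 / (2 * r) with hεdef
  have hε : 0 < ε := by positivity
  obtain ⟨P, hP⟩ := (eventually_all.2
    (fun c : Fin r => eventually_seed_moment h c hw hw1 hN (fun i => (hu i).1) hcoef
      (fun P f => hproj P f c) (fun P => hunif P c) (m + 1) hε)).exists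
  set B := (r : ℝ) * ((C ^ (m + 1) * ‖Ω‖) ^ 2 + ε) with hB
  have : Nonempty (Fin P.n → Fin r) := ⟨fun _ => ⟨0, hr⟩⟩
  have hN0 : (0 : ℝ) < Fintype.card (Fin P.n → Fin r) := by exact_mod_cast Fintype.card_pos
  obtain ⟨f, -, hf⟩ : ∃ f ∈ (Finset.univ : Finset (Fin P.n → Fin r)),
      ∑ c, ‖((seedPiece P u coef f c * w * seedPiece P u coef f c) ^ (m + 1)) Ω‖ ^ 2 ≤ B := by
    refine Finset.exists_le_of_sum_le Finset.univ_nonempty ?_
    rw [Finset.sum_comm, Finset.sum_const, Finset.card_univ, nsmul_eq_mul]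
    calc ∑ c, ∑ f : Fin P.n → Fin r, ‖((seedPiece P u coef f c * w * seedPiece P u coef f c) ^ (m + 1)) Ω‖ ^ 2
        ≤ ∑ _c : Fin r, (Fintype.card (Fin P.n → Fin r) : ℝ) * ((C ^ (m + 1) * ‖Ω‖) ^ 2 + ε) := by
          refine Finset.sum_le_sum (fun c _ => ?_)
          have := hP c
          rwa [inv_mul_le_iff₀ hN0] at this
      _ = _ := by
          rw [Finset.sum_const, Finset.card_univ, Fintype.card_fin, nsmul_eq_mul, hB]
          ring
  have hp : ∀ c, seedPiece P u coef f c ∈ A ∧ IsStarProjection (seedPiece P u coef f c) := fun c =>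
    ⟨sum_mem (fun κ _ => mul_mem (hcoef κ c) (list_prod_mem (fun x hx => by
      rw [List.mem_ofFn] at hx
      obtain ⟨i, rfl⟩ := hx
      exact (hu i).1.conj_mem ((P.piece_props f).1 _).1))), hproj P f c⟩
  have ho : ∀ i j, i ≠ j → seedPiece P u coef f i * seedPiece P u coef f j = 0 := horth P f
  refine ⟨P, f, ?_⟩
  set S := ∑ c, seedPiece P u coef f c * w * seedPiece P u coef f c with hSdef
  have hSM : S ∈ M :=
    sum_mem (fun c _ => mul_mem (mul_mem (hA.mem_M (hp c).1) hw) (hA.mem_M (hp c).1))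
  have hSs : IsSelfAdjoint S := by
    change star S = S
    simp only [hSdef, star_sum, star_mul, (hp _).2.isSelfAdjoint.star_eq, hws.star_eq, mul_assoc]
  refine ⟨cfc (clamp t) S, cfc_mem_M hSM _, cfc_predicate _ S, ?_, ?_⟩
  · refine norm_cfc_le ht0.le (fun s _ => ?_)
    rw [Real.norm_eq_abs, abs_le]
    exact ⟨le_max_left _ _, max_le (by linarith) (min_le_left _ _)⟩
  have hpow : ‖(S ^ (m + 1)) Ω‖ ^ 2
      = ∑ c, ‖((seedPiece P u coef f c * w * seedPiece P u coef f c) ^ (m + 1)) Ω‖ ^ 2 := by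
    rw [hSdef, pow_sum_orth (q := seedPiece P u coef f) ho, _root_.sum_apply]
    have hsplit : ∀ c, ((seedPiece P u coef f c * w * seedPiece P u coef f c) ^ (m + 1)) Ω
        = seedPiece P u coef f c (w (seedPiece P u coef f c (((seedPiece P u coef f c * w * seedPiece P u coef f c) ^ m) Ω))) := fun c => by
      rw [pow_succ']; rfl
    simp only [hsplit]
    exact norm_sq_sum_left Finset.univ (seedPiece P u coef f) (fun c => (hp c).2) ho
      (fun c => w (seedPiece P u coef f c (((seedPiece P u coef f c * w * seedPiece P u coef f c) ^ m) Ω)))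
  have hcl := (clamp_bound h hSs ht0 m).trans (hpow.le.trans hf)
  have hBle : B ≤ (t ^ m) ^ 2 * η ^ 2 := by
    have e1 : (C ^ (m + 1) * ‖Ω‖) ^ 2 = (t ^ m) ^ 2 * ((C * ‖Ω‖) ^ 2 * ((5 / 8 : ℝ) ^ 2) ^ m) := by
      have : C = (5 / 8) * t := by rw [hC, ht]; ring
      rw [this]
      generalize (5 / 8 : ℝ) = q
      ring
    have h2 := mul_le_mul_of_nonneg_left hm (sq_nonneg (t ^ m))
    have e2 : (r : ℝ) * ε = (t ^ m) ^ 2 * η ^ 2 / 2 := by rw [hεdef]; field_simp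
    rw [hB, mul_add, e2, e1]
    nlinarith
  exact (sq_le_sq₀ (norm_nonneg _) hη.le).1
    (le_of_mul_le_mul_left (hcl.trans hBle) (by positivity))

end Vale.Agent.P078.Sharp
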