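import Vale.Agent.P078.Sharp.Mix.Normal

/-!
# Colour pieces given by seed polynomials are centred sums of separated monomials
-/

set_option linter.unusedSectionVars false

namespace Vale.Agent.P078.Sharp

open ComplexInnerProductSpace
open Filter Topology
open Vale.Agent.P078 Vale.Agent.P078.General Vale.Agent.P078.Finite
open scoped CStarAlgebra

universe u

variable {H : Type u} [NormedAddCommGroup H] [InnerProductSpace ℂ H] [CompleteSpace H]
variable {M : VonNeumannAlgebra H} {A : StarSubalgebra ℂ (H →L[ℂ] H)} {Ω : H}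
variable {r : ℕ}

/-- The product of the translated seed pieces of a pattern. -/
noncomputable def patProd (P : Part A) {r N : ℕ} (u : Fin N → H →L[ℂ] H) (f : Fin P.n → Fin r)
    (κ : Fin N → Fin r) : H →L[ℂ] H :=
  (List.ofFn fun i => u i * P.piece f (κ i) * star (u i)).prod

/-- The colour pieces of a seed polynomial. -/
noncomputable def seedPiece (P : Part A) {r N : ℕ} (u : Fin N → H →L[ℂ] H)
    (coef : (Fin N → Fin r) → Fin r → H →L[ℂ] H) (f : Fin P.n → Fin r) (c : Fin r) : H →L[ℂ] H :=
  ∑ κ, coef κ c * patProd P u f κ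

variable {hA : IsMASAIn M A}

/-- A separated product ignores the colour of the atom of its first site. -/
lemma csProd_indep (hA : IsMASAIn M A) (P : Part A) {f f' : Fin P.n → Fin r} {i : Fin P.n}
    (hff : ∀ j, j ≠ i → f j = f' j) {a : H →L[ℂ] H} (ha : a ∈ A) {v : H →L[ℂ] H}
    (hv : IsNormaliser M A v) :
    ∀ {T : List (Site H r)}, SitesGood M A T →
      (∀ w ∈ T, a * ((v * P.e i * star v) * (w.1 * P.e i * star w.1)) = 0) →
      a * (v * P.e i * star v) * csProd (bFam P f) T
        = a * (v * P.e i * star v) * csProd (bFam P f') T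
  | [], _, _ => rfl
  | w :: T, hT, hz => by
    have hw := hT.head
    have hb : ∀ g : Fin P.n → Fin r, w.1 * bFam P g w.2 * star w.1
        = ∑ j, (xi w.2 (g j) : ℂ) • (w.1 * P.e j * star w.1) := fun g => by
      simp [bFam, bOp, Finset.mul_sum, Finset.sum_mul]
    have hV : a * (v * P.e i * star v) * (w.1 * bFam P f w.2 * star w.1)
        = a * (v * P.e i * star v) * (w.1 * bFam P f' w.2 * star w.1) := by
      rw [hb, hb, Finset.mul_sum, Finset.mul_sum]
      refine Finset.sum_congr rfl (fun j _ => ?_)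
      by_cases hj : j = i
      · subst hj
        simp only [mul_smul_comm, mul_assoc a, hz w (List.mem_cons_self ..), smul_zero]
      · rw [hff j hj]
    have ih := csProd_indep hA P hff ha hv hT.tail (fun z hz' => hz z (List.mem_cons_of_mem _ hz'))
    have hC : ∀ g : Fin P.n → Fin r, a * (v * P.e i * star v) ∈ A ∧
        w.1 * bFam P g w.2 * star w.1 ∈ A ∧ csProd (bFam P g) T ∈ A := fun g =>
      ⟨mul_mem ha (hv.conj_mem (P.mem i)), hw.conj_mem (bFam_mem P g _),
        csProd_mem (bFam_mem P g) hT.tail⟩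
    rw [csProd_cons, csProd_cons]
    calc a * (v * P.e i * star v) * (w.1 * bFam P f w.2 * star w.1 * csProd (bFam P f) T)
        = a * (v * P.e i * star v) * csProd (bFam P f) T * (w.1 * bFam P f w.2 * star w.1) := by
          rw [hA.comm (hC f).2.1 (hC f).2.2, ← mul_assoc]
      _ = a * (v * P.e i * star v) * csProd (bFam P f') T * (w.1 * bFam P f w.2 * star w.1) := by
          rw [ih]
      _ = a * (v * P.e i * star v) * (w.1 * bFam P f w.2 * star w.1) * csProd (bFam P f') T := by
          rw [mul_assoc (a * _), hA.comm (hC f').2.2 (hC f).2.1, ← mul_assoc]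
      _ = _ := by rw [hV, mul_assoc]

/-- The average of a separated monomial vanishes. -/
lemma eventually_sum_term {t : (H →L[ℂ] H) × List (Site H r)} (ht : TermGood hA t) :
    ∀ᶠ P in (uf hA : Filter (Part A)),
      ∑ f : Fin P.n → Fin r, t.1 * csProd (bFam P f) t.2 = 0 := by
  obtain ⟨ha, hne, hT, hsep⟩ := ht
  obtain ⟨s, T, hsT⟩ := List.exists_cons_of_ne_nil hne
  rw [hsT] at hT hsep
  have hs := hT.head
  have : NeZero r := ⟨s.2.pos.ne'⟩
  filter_upwards [hsep] with P hP
  simp only [CSep, List.map_cons, Finite.Sep, List.pairwise_cons] at hP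
  have e : ∀ f : Fin P.n → Fin r, t.1 * csProd (bFam P f) t.2
      = ∑ i, (xi s.2 (f i) : ℂ) • (t.1 * (s.1 * P.e i * star s.1) * csProd (bFam P f) T) :=
    fun f => by
    rw [hsT, csProd_cons, ← mul_assoc]
    simp [bFam, bOp, Finset.mul_sum, Finset.sum_mul, mul_assoc]
  simp only [e]
  rw [Finset.sum_comm]
  refine Finset.sum_eq_zero (fun i _ => ?_)
  set G := fun f : Fin P.n → Fin r => t.1 * (s.1 * P.e i * star s.1) * csProd (bFam P f) T with hG
  have hind : ∀ (f : Fin P.n → Fin r) (k : Fin r), G (Function.update f i k) = G f := fun f k =>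
    csProd_indep hA P (fun j hj => Function.update_of_ne hj _ _) ha hs hT.tail
      (fun w hw => hP.1 _ (List.mem_map.2 ⟨w, hw, rfl⟩) i)
  have hshift : ∀ k : Fin r, ∑ f : Fin P.n → Fin r, (xi s.2 (f i + k) : ℂ) • G f
      = ∑ f : Fin P.n → Fin r, (xi s.2 (f i) : ℂ) • G f := fun k => by
    let e' : (Fin P.n → Fin r) ≃ (Fin P.n → Fin r) :=
      { toFun := fun f => Function.update f i (f i + k)
        invFun := fun f => Function.update f i (f i - k)
        left_inv := fun f => by simp
        right_inv := fun f => by simp }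
    refine Eq.trans ?_ (e'.sum_comp fun f => (xi s.2 (f i) : ℂ) • G f)
    refine Finset.sum_congr rfl (fun f _ => ?_)
    simp [e', hind]
  have h0 : (r : ℂ) • ∑ f : Fin P.n → Fin r, (xi s.2 (f i) : ℂ) • G f = 0 := by
    calc (r : ℂ) • ∑ f : Fin P.n → Fin r, (xi s.2 (f i) : ℂ) • G f
        = ∑ k : Fin r, ∑ f : Fin P.n → Fin r, (xi s.2 (f i + k) : ℂ) • G f := by
          simp only [hshift, Finset.sum_const, Finset.card_univ, Fintype.card_fin]
          exact Nat.cast_smul_eq_nsmul ℂ _ _
      _ = 0 := by
          rw [Finset.sum_comm]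
          refine Finset.sum_eq_zero (fun f _ => ?_)
          rw [← Finset.sum_smul, ← Complex.ofReal_sum,
            show ∑ k, xi s.2 (f i + k) = 0 from (Equiv.sum_comp (Equiv.addLeft (f i)) (xi s.2)).trans (sum_xi s.2)]
          simp
  rcases smul_eq_zero.1 h0 with hz | hz
  · exact absurd hz (Nat.cast_ne_zero.2 (NeZero.ne r))
  · exact hz

lemma eventually_sum_termSum : ∀ {L : List ((H →L[ℂ] H) × List (Site H r))},
    (∀ t ∈ L, TermGood hA t) → ∀ᶠ P in (uf hA : Filter (Part A)),
      ∑ f : Fin P.n → Fin r, termSum (bFam P f) L = 0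
  | [], _ => Filter.Eventually.of_forall (fun P => by simp [termSum])
  | t :: L, hL => by
    filter_upwards [eventually_sum_term (hL t (List.mem_cons_self ..)),
      eventually_sum_termSum (L := L) (fun z hz => hL z (List.mem_cons_of_mem _ hz))] with P h1 h2
    simp only [termSum, List.map_cons, List.sum_cons] at h2 ⊢
    rw [Finset.sum_add_distrib, h1, h2, add_zero]

variable (h : FinSetting M A Ω)
include h

/-- **Centring.** A seed colour piece of average `1 / r` is, eventually, `1 / r` plus separated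
monomials. -/
theorem exists_centred {N : ℕ} {u : Fin N → H →L[ℂ] H} (hu : ∀ i, IsNormaliser M A (u i))
    {coef : (Fin N → Fin r) → Fin r → H →L[ℂ] H} (hcoef : ∀ κ c, coef κ c ∈ A) (c : Fin r)
    (hunif : ∀ P : Part A, ∑ f : Fin P.n → Fin r, seedPiece P u coef f c
      = ((Fintype.card (Fin P.n → Fin r) : ℂ) / r) • 1) :
    ∃ L : List ((H →L[ℂ] H) × List (Site H r)), (∀ t ∈ L, TermGood h.masa t) ∧
      ∀ᶠ P in (uf h.masa : Filter (Part A)), ∀ f,
        seedPiece P u coef f c - ((1 / r : ℝ) : ℂ) • 1 = termSum (bFam P f) L := by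
  have hA := h.masa
  have hN : IsNormal hA (fun P f => seedPiece P u coef f c) := by
    refine IsNormal.sum _ (fun κ _ => ?_)
    have := isNormal_pieces h (r := r) (hcoef κ c)
      (T := List.ofFn (fun i => ((u i, κ i) : Site H r))) (fun s hs => by
        rw [List.mem_ofFn] at hs
        obtain ⟨i, rfl⟩ := hs
        exact hu i)
    simpa [patProd, List.map_ofFn, Function.comp_def] using this
  obtain ⟨α, -, L, hL, hev⟩ := hN
  refine ⟨L, hL, ?_⟩
  have hα : α = ((1 / r : ℝ) : ℂ) • (1 : H →L[ℂ] H) := by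
    obtain ⟨P, hP, hP0⟩ := (hev.and (eventually_sum_termSum hL)).exists
    have hcard : (Fintype.card (Fin P.n → Fin r) : ℂ) ≠ 0 := by
      have : Nonempty (Fin P.n → Fin r) := ⟨fun _ => c⟩
      exact_mod_cast Fintype.card_ne_zero
    have := hunif P
    simp only [hP, Finset.sum_add_distrib, hP0, add_zero, Finset.sum_const, Finset.card_univ]
      at this
    rw [← Nat.cast_smul_eq_nsmul ℂ] at this
    refine smul_right_injective _ hcard ?_
    simp only [this, smul_smul]
    congr 1
    push_cast
    ring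
  filter_upwards [hev] with P hP f
  rw [hP f, hα, add_sub_cancel_left]

end Vale.Agent.P078.Sharp
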