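import Vale.Agent.P078.Mix.Colouring

/-!
# Moments of centred indicators with a colour at every site
-/

set_option linter.unusedSectionVars false

namespace Vale.Agent.P078.Sharp

open ComplexInnerProductSpace
open Filter Topology
open Vale.Agent.P078 Vale.Agent.P078.General Vale.Agent.P078.Finite
open scoped CStarAlgebra

universe u

variable {H : Type u} [NormedAddCommGroup H] [InnerProductSpace ℂ H] [CompleteSpace H]
variable {V : Type} [Fintype V] [DecidableEq V]

/-- The moment of centred indicators, one colour per site, along a valuation. -/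
noncomputable def cmoment {r : ℕ} {ι : Type} [Fintype ι] (cs : ι → Fin r) {n : ℕ}
    (val : ι → Fin n) : ℝ :=
  ((Fintype.card (Fin n → Fin r) : ℝ))⁻¹ * ∑ f : Fin n → Fin r, ∏ i, xi (cs i) (f (val i))

lemma abs_cmoment_le {r : ℕ} {ι : Type} [Fintype ι] (cs : ι → Fin r) {n : ℕ} (val : ι → Fin n) :
    |cmoment cs val| ≤ 1 := by
  rcases Nat.eq_zero_or_pos (Fintype.card (Fin n → Fin r)) with h0 | h0
  · rw [cmoment, h0]; simp
  have hN : (0 : ℝ) < Fintype.card (Fin n → Fin r) := by exact_mod_cast h0
  rw [cmoment, abs_mul, abs_inv, abs_of_pos hN, inv_mul_le_iff₀ hN, mul_one]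
  refine (Finset.abs_sum_le_sum_abs _ _).trans ?_
  refine (Finset.sum_le_card_nsmul _ _ 1 (fun f _ => ?_)).trans (by simp)
  rw [Finset.abs_prod]
  exact Finset.prod_le_one (fun i _ => abs_nonneg _) (fun i _ => abs_xi_le _ _)

/-- A moment depends only on the kernel. -/
lemma cmoment_congr {r : ℕ} {ι : Type} [Fintype ι] [DecidableEq ι] (cs : ι → Fin r) {n : ℕ}
    {val val' : ι → Fin n} (hk : kerSet val = kerSet val') : cmoment cs val = cmoment cs val' := by
  classical
  have hk' : ∀ i j, val i = val j ↔ val' i = val' j := fun i j => by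
    have := Finset.ext_iff.1 hk (i, j)
    simpa [mem_kerSet] using this
  let g : {x // x ∈ Set.range val} → {x // x ∈ Set.range val'} :=
    fun x => ⟨val' x.2.choose, x.2.choose, rfl⟩
  have hg : Function.Bijective g := by
    constructor
    · intro x y hxy
      have h1 := (hk' _ _).2 (congrArg Subtype.val hxy)
      rw [x.2.choose_spec, y.2.choose_spec] at h1
      exact Subtype.ext h1
    · rintro ⟨_, i, rfl⟩
      refine ⟨⟨val i, i, rfl⟩, Subtype.ext ?_⟩
      exact (hk' _ _).1 (Exists.choose_spec (⟨i, rfl⟩ : ∃ j, val j = val i))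
  let σ : Equiv.Perm (Fin n) := (Equiv.ofBijective g hg).extendSubtype
  have hσ : ∀ i, σ (val i) = val' i := fun i => by
    rw [Equiv.extendSubtype_apply_of_mem _ _ ⟨i, rfl⟩]
    exact (hk' _ _).1 (Exists.choose_spec (⟨i, rfl⟩ : ∃ j, val j = val i))
  rw [cmoment, cmoment, ← Equiv.sum_comp (Equiv.arrowCongr σ (Equiv.refl (Fin r)))
    (fun f => ∏ i, xi (cs i) (f (val' i)))]
  congr 1
  refine Finset.sum_congr rfl (fun f _ => Finset.prod_congr rfl (fun i _ => ?_))
  simp [Equiv.arrowCongr, ← hσ i]

/-- A moment with a singleton block vanishes. -/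
lemma cmoment_eq_zero {r : ℕ} {ι : Type} [Fintype ι] [DecidableEq ι] (cs : ι → Fin r) {n : ℕ}
    {val : ι → Fin n} {i : ι} (hi : ∀ j, val i = val j → j = i) : cmoment cs val = 0 := by
  classical
  have : NeZero r := ⟨(cs i).pos.ne'⟩
  set a := val i
  have hshift : ∀ (k : Fin r) (F : (Fin n → Fin r) → ℝ),
      ∑ f : Fin n → Fin r, F (Function.update f a (f a + k)) = ∑ f, F f := by
    intro k F
    let e : (Fin n → Fin r) ≃ (Fin n → Fin r) :=
      { toFun := fun f => Function.update f a (f a + k)
        invFun := fun f => Function.update f a (f a - k)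
        left_inv := fun f => by simp
        right_inv := fun f => by simp }
    exact e.sum_comp F
  have hr : (r : ℝ) * ∑ f : Fin n → Fin r, ∏ j, xi (cs j) (f (val j)) = 0 := by
    calc (r : ℝ) * ∑ f : Fin n → Fin r, ∏ j, xi (cs j) (f (val j))
        = ∑ k : Fin r, ∑ f : Fin n → Fin r,
            ∏ j, xi (cs j) (Function.update f a (f a + k) (val j)) := by
          simp only [hshift _ (fun f => ∏ j, xi (cs j) (f (val j)))]
          simp
      _ = 0 := by
          rw [Finset.sum_comm]
          refine Finset.sum_eq_zero (fun f _ => ?_)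
          simp only [← Finset.mul_prod_erase Finset.univ _ (Finset.mem_univ i), a,
            Function.update_self]
          have e : ∀ k : Fin r, ∏ j ∈ Finset.univ.erase i,
              xi (cs j) (Function.update f a (f a + k) (val j))
              = ∏ j ∈ Finset.univ.erase i, xi (cs j) (f (val j)) := fun k =>
            Finset.prod_congr rfl (fun j hj => by
              rw [Function.update_of_ne (fun hc => Finset.ne_of_mem_erase hj (hi j hc.symm))])
          simp only [a] at e
          simp only [e, ← Finset.sum_mul]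
          rw [show (∑ k, xi (cs i) (f (val i) + k)) = 0 from
            (Equiv.sum_comp (Equiv.addLeft (f (val i))) (xi (cs i))).trans (sum_xi (cs i)), zero_mul]
  rw [cmoment]
  rcases mul_eq_zero.1 hr with h0 | h0
  · exact absurd h0 (Nat.cast_ne_zero.2 (NeZero.ne r))
  · rw [h0, mul_zero]

lemma sum_cmoment_mul_le {r : ℕ} {ι : Type} [Fintype ι] [DecidableEq ι] (cs : ι → Fin r) {n : ℕ}
    (φ : (ι → Fin n) → ℂ) :
    ‖∑ val : ι → Fin n, (cmoment cs val : ℂ) * φ val‖
      ≤ ∑ K ∈ Finset.univ.filter (fun K : Finset (ι × ι) => ∀ i, ∃ j, j ≠ i ∧ (i, j) ∈ K),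
          ‖kerSum K φ‖ := by
  classical
  rw [← Finset.sum_fiberwise Finset.univ (fun val : ι → Fin n => kerSet val),
    Finset.sum_filter]
  refine (norm_sum_le _ _).trans (Finset.sum_le_sum (fun K _ => ?_))
  rcases Finset.eq_empty_or_nonempty
    (Finset.univ.filter (fun val : ι → Fin n => kerSet val = K)) with h0 | ⟨v0, hv0⟩
  · rw [h0, Finset.sum_empty, norm_zero]
    split_ifs <;> positivity
  · rw [Finset.mem_filter] at hv0
    have e : ∑ val ∈ Finset.univ.filter (fun val : ι → Fin n => kerSet val = K),
        (cmoment cs val : ℂ) * φ val = (cmoment cs v0 : ℂ) * kerSum K φ := by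
      rw [kerSum, Finset.mul_sum]
      exact Finset.sum_congr rfl (fun val hval => by
        rw [cmoment_congr cs ((Finset.mem_filter.1 hval).2.trans hv0.2.symm)])
    rw [e]
    split_ifs with hK
    · rw [norm_mul, Complex.norm_real]
      exact mul_le_of_le_one_left (norm_nonneg _) (abs_cmoment_le cs v0)
    · push Not at hK
      obtain ⟨i, hi⟩ := hK
      rw [cmoment_eq_zero cs (i := i) (fun j hj => by
        by_contra hne
        exact hi j hne (hv0.2 ▸ mem_kerSet.2 hj))]
      simp

/-- A letter with weights depending on its variable. -/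
noncomputable def cmixTok {n : ℕ} (ξ : V → Fin n → ℂ) : Tok H V n → (H →L[ℂ] H)
  | .site v p => ∑ a, ξ v a • p a
  | .elt x => x

lemma prod_cmix {n : ℕ} (ξ : V → Fin n → ℂ) : ∀ {L : List (Tok H V n)}, (occ L).Nodup →
    ∀ base : V → Fin n, (L.map (cmixTok ξ)).prod
      = ∑ g ∈ Env (vars L) base, (∏ v ∈ vars L, ξ v (g v)) • eval g L
  | [], _, base => by simp [vars, Env_empty]
  | .elt x :: L, hL, base => by
    rw [List.map_cons, List.prod_cons, prod_cmix ξ (L := L) hL base, Finset.mul_sum]
    exact Finset.sum_congr rfl (fun g _ => by simp [vars, eval_cons, Tok.val, cmixTok])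
  | .site v p :: L, hL, base => by
    rw [occ, List.nodup_cons] at hL
    have hv : v ∉ vars L := fun hc => hL.1 ((mem_occ L).2 hc)
    rw [List.map_cons, List.prod_cons]
    simp only [cmixTok, vars, Finset.sum_mul]
    rw [sum_Env_insert hv]
    refine Finset.sum_congr rfl (fun a _ => ?_)
    rw [prod_cmix ξ hL.2 (Function.update base v a), Finset.mul_sum]
    refine Finset.sum_congr rfl (fun g hg => ?_)
    have : g v = a := by rw [mem_Env.1 hg v hv, Function.update_self]
    rw [Finset.prod_insert hv, eval_cons, Tok.val, this, smul_mul_smul_comm]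

end Vale.Agent.P078.Sharp
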