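import Vale.Agent.P078.Mix.Monomial
import Vale.Agent.P078.Sharp.Mix.Colouring

/-!
# Words in translates of centred colour pieces, a colour for every translate
-/

set_option linter.unusedSectionVars false

namespace Vale.Agent.P078.Sharp

open ComplexInnerProductSpace
open Filter Topology
open Vale.Agent.P078 Vale.Agent.P078.General Vale.Agent.P078.Finite
open scoped CStarAlgebra

universe u

variable {H : Type u} [NormedAddCommGroup H] [InnerProductSpace ℂ H] [CompleteSpace H]
variable {M : VonNeumannAlgebra H} {A : StarSubalgebra ℂ (H →L[ℂ] H)} {Ω : H}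
variable {V : Type} [Fintype V] [DecidableEq V] {r : ℕ}

/-- A translate with its colour. -/
abbrev Site (H : Type u) [NormedAddCommGroup H] [InnerProductSpace ℂ H] (r : ℕ) : Type u :=
  (H →L[ℂ] H) × Fin r

/-- An alternating letter: coefficient, coloured translations, following element. -/
abbrev CPos (H : Type u) [NormedAddCommGroup H] [InnerProductSpace ℂ H] (r : ℕ) : Type u :=
  ((H →L[ℂ] H) × List (Site H r)) × (H →L[ℂ] H)

/-- The product of the translates. -/
noncomputable def csProd (β : Fin r → (H →L[ℂ] H)) (T : List (Site H r)) : H →L[ℂ] H :=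
  (T.map (fun s => s.1 * β s.2 * star s.1)).prod

/-- An alternating word. -/
noncomputable def cword (β : Fin r → (H →L[ℂ] H)) (Ms : List (CPos H r)) : H →L[ℂ] H :=
  (Ms.map (fun x => x.1.1 * csProd β x.1.2 * x.2)).prod

/-- The centred pieces of a colouring. -/
noncomputable def bFam (P : Part A) (f : Fin P.n → Fin r) : Fin r → (H →L[ℂ] H) := bOp P f

lemma bFam_mem (P : Part A) (f : Fin P.n → Fin r) (k : Fin r) : bFam P f k ∈ A := bOp_mem P f k

lemma bFam_sa (P : Part A) (f : Fin P.n → Fin r) (k : Fin r) : IsSelfAdjoint (bFam P f k) :=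
  bOp_sa P f k

lemma norm_bFam_le (P : Part A) (f : Fin P.n → Fin r) (k : Fin r) : ‖bFam P f k‖ ≤ 1 :=
  norm_bOp_le P f k

/-- The translates of a list are separated by `a`. -/
def CSep (P : Part A) (a : H →L[ℂ] H) (T : List (Site H r)) : Prop := Sep P a (T.map Prod.fst)

/-- Admissible translates. -/
def SitesGood (M : VonNeumannAlgebra H) (A : StarSubalgebra ℂ (H →L[ℂ] H)) (T : List (Site H r)) :
    Prop :=
  ∀ s ∈ T, IsNormaliser M A s.1

/-- Admissible alternating letters. -/
def CPos.Good (hA : IsMASAIn M A) (x : CPos H r) : Prop :=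
  x.1.1 ∈ A ∧ x.1.2 ≠ [] ∧ SitesGood M A x.1.2 ∧ x.2 ∈ M ∧
    ∀ᶠ P in (uf hA : Filter (Part A)), CSep P x.1.1 x.1.2

variable {β : Fin r → (H →L[ℂ] H)}

lemma csProd_nil : csProd β ([] : List (Site H r)) = 1 := rfl

lemma csProd_cons (s : Site H r) (T : List (Site H r)) :
    csProd β (s :: T) = s.1 * β s.2 * star s.1 * csProd β T := rfl

lemma csProd_append (T T' : List (Site H r)) :
    csProd β (T ++ T') = csProd β T * csProd β T' := by simp [csProd]

lemma SitesGood.tail {s : Site H r} {T : List (Site H r)} (hT : SitesGood M A (s :: T)) :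
    SitesGood M A T := fun v hv => hT v (List.mem_cons_of_mem _ hv)

lemma SitesGood.head {s : Site H r} {T : List (Site H r)} (hT : SitesGood M A (s :: T)) :
    IsNormaliser M A s.1 := hT s (List.mem_cons_self ..)

lemma csProd_mem (hb : ∀ k, β k ∈ A) : ∀ {T : List (Site H r)}, SitesGood M A T → csProd β T ∈ A
  | [], _ => one_mem A
  | s :: T, hT => by
    rw [csProd_cons]
    exact mul_mem (hT.head.conj_mem (hb _)) (csProd_mem hb hT.tail)

lemma csProd_middle (hA : IsMASAIn M A) (hb : ∀ k, β k ∈ A) {s : Site H r}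
    (hs : IsNormaliser M A s.1) {T T' : List (Site H r)} (hT : SitesGood M A T) :
    csProd β (T ++ s :: T') = s.1 * β s.2 * star s.1 * csProd β (T ++ T') := by
  rw [csProd_append, csProd_cons, csProd_append, ← mul_assoc,
    hA.comm (csProd_mem hb hT) (hs.conj_mem (hb _)), mul_assoc]

lemma csProd_sa (hA : IsMASAIn M A) (hb : ∀ k, β k ∈ A) (hbs : ∀ k, IsSelfAdjoint (β k)) :
    ∀ {T : List (Site H r)}, SitesGood M A T → star (csProd β T) = csProd β T
  | [], _ => by simp [csProd]
  | s :: T, hT => by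
    rw [csProd_cons, star_mul, csProd_sa hA hb hbs hT.tail,
      hA.comm (csProd_mem hb hT.tail) (star_mem (hT.head.conj_mem (hb _)))]
    congr 1
    simp [star_mul, (hbs _).star_eq, mul_assoc]

lemma norm_csProd_le (hb : ∀ k, ‖β k‖ ≤ 1) :
    ∀ {T : List (Site H r)}, SitesGood M A T → ‖csProd β T‖ ≤ 1
  | [], _ => by
    simp only [csProd, List.map_nil, List.prod_nil]
    exact (IsStarProjection.one (H →L[ℂ] H)).norm_le
  | s :: T, hT => by
    have hu := hT.head.norm_le
    rw [csProd_cons]
    refine (norm_mul_le _ _).trans ?_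
    refine mul_le_one₀ ?_ (norm_nonneg _) (norm_csProd_le hb hT.tail)
    refine (norm_mul_le _ _).trans (mul_le_one₀ ((norm_mul_le _ _).trans
      (mul_le_one₀ hu (norm_nonneg _) (hb _))) (norm_nonneg _) ?_)
    rwa [norm_star]

lemma cword_cons (x : CPos H r) (Ms : List (CPos H r)) :
    cword β (x :: Ms) = x.1.1 * csProd β x.1.2 * x.2 * cword β Ms := rfl

lemma cword_append (Ms Ms' : List (CPos H r)) :
    cword β (Ms ++ Ms') = cword β Ms * cword β Ms' := by simp [cword]

lemma cword_nil : cword β ([] : List (CPos H r)) = 1 := rfl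

/-- The letters of `star (word * F) * z`. -/
noncomputable def crev : List (CPos H r) → ((H →L[ℂ] H) × List (Site H r)) → (H →L[ℂ] H) →
    List (CPos H r)
  | [], F, z => [((star F.1, F.2), z)]
  | x :: Ms, F, z => crev Ms F (star x.2) ++ [((star x.1.1, x.1.2), z)]

/-- `v x` for a normaliser `v`: the translated letter. -/
noncomputable def ctranslate (v : H →L[ℂ] H) (x : CPos H r) : CPos H r :=
  ((v * x.1.1 * star v, x.1.2.map (fun s => (v * s.1, s.2))), v * x.2)

lemma conj_csProd (hA : IsMASAIn M A) {v : H →L[ℂ] H} (hv : IsNormaliser M A v)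
    (hb : ∀ k, β k ∈ A) :
    ∀ {T : List (Site H r)}, SitesGood M A T → ∀ {a : H →L[ℂ] H}, a ∈ A →
      v * (a * csProd β T) * star v
        = v * a * star v * csProd β (T.map (fun s => (v * s.1, s.2)))
  | [], _, a, _ => by simp [csProd]
  | s :: T, hT, a, ha => by
    rw [csProd_cons, List.map_cons, csProd_cons, ← hv.conj_mul hA ha,
      conj_csProd hA hv hb hT.tail (hT.head.conj_mem (hb _))]
    simp only [star_mul, mul_assoc]

lemma conj_mul_cword (hA : IsMASAIn M A) {v : H →L[ℂ] H} (hv : IsNormaliser M A v)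
    (hb : ∀ k, β k ∈ A) {x : CPos H r} (hx : x.1.1 ∈ A) (hT : SitesGood M A x.1.2) :
    v * (x.1.1 * csProd β x.1.2 * x.2)
      = (ctranslate v x).1.1 * csProd β (ctranslate v x).1.2 * (ctranslate v x).2 := by
  have hF : x.1.1 * csProd β x.1.2 ∈ A := mul_mem hx (csProd_mem hb hT)
  simp only [ctranslate]
  rw [← conj_csProd hA hv hb hT hx]
  calc v * (x.1.1 * csProd β x.1.2 * x.2)
      = v * (star v * v) * (x.1.1 * csProd β x.1.2) * x.2 := by
        rw [hv.mul_src]; simp only [mul_assoc]
    _ = _ := by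
        rw [mul_assoc v (star v * v), ← hA.comm hF hv.src_mem]
        simp only [mul_assoc]

lemma cmix_tokF (P : Part A) (ξ : Fin r → Fin P.n → ℂ) (col : V → Fin r) :
    ∀ F : List (V × (H →L[ℂ] H)),
      ((tokF P F).map (cmixTok (fun v => ξ (col v)))).prod
        = csProd (fun k => ∑ i, ξ k i • P.e i) (F.map (fun s => (s.2, col s.1)))
  | [] => by simp [tokF, csProd]
  | s :: F => by
    have := cmix_tokF P ξ col F
    simp only [tokF, List.map_cons, usite, cmixTok, csProd, List.prod_cons] at this ⊢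
    rw [this]
    congr 1
    simp [Finset.mul_sum, Finset.sum_mul]

lemma cmix_toks (P : Part A) (ξ : Fin r → Fin P.n → ℂ) (col : V → Fin r) :
    ∀ L : List (Posn H V), ((toks P L).map (cmixTok (fun v => ξ (col v)))).prod
      = (L.map (fun x => csProd (fun k => ∑ i, ξ k i • P.e i)
          (x.1.map (fun s => (s.2, col s.1))) * x.2)).prod
  | [] => rfl
  | x :: L => by
    simp [toks, cmix_tokF, cmix_toks P ξ col L, cmixTok, mul_assoc]

end Vale.Agent.P078.Sharp
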