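import Vale.Agent.P078.Sharp.Mix.Letters

/-!
# Random colourings annihilate alternating coloured words
-/

set_option linter.unusedSectionVars false

namespace Vale.Agent.P078.Sharp

open ComplexInnerProductSpace
open Filter Topology
open Vale.Agent.P078 Vale.Agent.P078.General Vale.Agent.P078.Finite
open scoped CStarAlgebra

universe u

variable {H : Type u} [NormedAddCommGroup H] [InnerProductSpace ℂ H] [CompleteSpace H]
variable {M : VonNeumannAlgebra H} {A : StarSubalgebra ℂ (H →L[ℂ] H)} {Ω : H}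

variable (h : FinSetting M A Ω)
include h

/-- **Orthogonality.** The expected trace of an alternating word tends to zero. -/
theorem tendsto_cword {r : ℕ} {Ms : List (CPos H r)} (hne : Ms ≠ [])
    (hgood : ∀ x ∈ Ms, CPos.Good h.masa x) (hN : ∀ x ∈ Ms.dropLast, OrthN M A Ω x.2)
    :
    Tendsto (fun P : Part A => ((Fintype.card (Fin P.n → Fin r) : ℂ))⁻¹ *
      ∑ f : Fin P.n → Fin r, ⟪Ω, cword (bFam P f) Ms Ω⟫) (uf h.masa) (𝓝 0) := by
  classical
  have hA := h.masa
  let ι := Σ i : Fin Ms.length, Fin ((Ms.get i).1.2.length)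
  let pos : Fin Ms.length → Posn H ι := fun i =>
    (List.ofFn (fun g : Fin ((Ms.get i).1.2.length) => ((⟨i, g⟩ : ι), ((Ms.get i).1.2.get g).1)),
      (Ms.get i).1.1 * (Ms.get i).2)
  set L : List (Posn H ι) := List.ofFn pos with hL
  have hmem : ∀ x ∈ L, ∃ i, x = pos i := fun x hx => by
    rw [hL, List.mem_ofFn] at hx
    obtain ⟨i, rfl⟩ := hx
    exact ⟨i, rfl⟩
  have hget : ∀ i, CPos.Good hA (Ms.get i) := fun i => hgood _ (List.get_mem Ms i)
  have hsite : ∀ i, ∀ s ∈ (pos i).1, ∃ g : Fin ((Ms.get i).1.2.length),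
      s = (⟨i, g⟩, ((Ms.get i).1.2.get g).1) := fun i s hs => by
    rw [List.mem_ofFn] at hs
    obtain ⟨g, rfl⟩ := hs
    exact ⟨g, rfl⟩
  have hgoodL : ∀ x ∈ L, Posn.Good M A x := by
    intro x hx
    obtain ⟨i, rfl⟩ := hmem x hx
    refine ⟨fun s hs => ?_, mul_mem (hA.mem_M (hget i).1) (hget i).2.2.2.1⟩
    obtain ⟨g, rfl⟩ := hsite i s hs
    exact (hget i).2.2.1 _ (List.get_mem _ g)
  have hposL : ∀ x ∈ L, x.1 ≠ [] := by
    intro x hx
    obtain ⟨i, rfl⟩ := hmem x hx
    intro hc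
    have := congrArg List.length hc
    simp only [pos, List.length_ofFn, List.length_nil, List.length_eq_zero_iff] at this
    exact (hget i).2.1 this
  have hLne : L ≠ [] := by
    intro hc
    have := congrArg List.length hc
    simp only [hL, List.length_ofFn, List.length_nil, List.length_eq_zero_iff] at this
    exact hne this
  have hNL : ∀ x ∈ L.dropLast, OrthN M A Ω x.2 := by
    intro x hx
    obtain ⟨k, hk, rfl⟩ := List.getElem_of_mem hx
    have hk' : k < Ms.length - 1 := by simpa [hL] using hk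
    rw [List.getElem_dropLast, List.getElem_ofFn]
    refine orthN_mul_left h (inN_of_mem h (hget _).1) (hN _ ?_)
    exact List.mem_iff_getElem.2 ⟨k, by simpa using hk',
      by rw [List.getElem_dropLast]; rfl⟩
  have hfst : ∀ i, (pos i).1.map Prod.fst
      = List.ofFn (fun g : Fin ((Ms.get i).1.2.length) => (⟨i, g⟩ : ι)) := fun i => by
    simp [pos, List.map_ofFn, Function.comp_def]
  have hnd : (flatV L).Nodup := by
    rw [flatV, List.nodup_flatMap]
    refine ⟨fun x hx => ?_, ?_⟩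
    · obtain ⟨i, rfl⟩ := hmem x hx
      rw [hfst, List.nodup_ofFn]
      intro g g' e
      exact eq_of_heq (Sigma.mk.inj_iff.1 e).2
    · rw [hL, List.pairwise_ofFn]
      intro i j hij w hw1 hw2
      simp only [hfst, List.mem_ofFn] at hw1 hw2
      obtain ⟨g, rfl⟩ := hw1
      obtain ⟨g', e⟩ := hw2
      exact hij.ne' (congrArg Sigma.fst e)
  have hall : ∀ v : ι, v ∈ flatV L := fun v => by
    rw [flatV, List.mem_flatMap]
    exact ⟨pos v.1, by rw [hL, List.mem_ofFn]; exact ⟨v.1, rfl⟩,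
      by rw [hfst, List.mem_ofFn]; exact ⟨v.2, rfl⟩⟩
  have hsep : ∀ x ∈ L, ∀ s ∈ x.1, ∀ t ∈ x.1, s.1 ≠ t.1 → ∀ᶠ P in (uf hA : Filter (Part A)),
      ∀ i, (s.2 * P.e i * star s.2) * (t.2 * P.e i * star t.2) * x.2 = 0 := by
    intro x hx s hs t ht hst
    obtain ⟨j, rfl⟩ := hmem x hx
    obtain ⟨g, rfl⟩ := hsite j s hs
    obtain ⟨g', rfl⟩ := hsite j t ht
    have hgg : (g : ℕ) ≠ g' := fun e => hst (by rw [Fin.ext e])
    filter_upwards [(hget j).2.2.2.2] with P hP
    intro i
    have hu := (hget j).2.2.1 _ (List.get_mem _ g)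
    have hv := (hget j).2.2.1 _ (List.get_mem _ g')
    have hz : (Ms.get j).1.1 * ((((Ms.get j).1.2.get g).1 * P.e i * star ((Ms.get j).1.2.get g).1)
        * (((Ms.get j).1.2.get g').1 * P.e i * star ((Ms.get j).1.2.get g').1)) = 0 := by
      rw [CSep, Finite.Sep, List.pairwise_map, List.pairwise_iff_getElem] at hP
      rcases lt_or_gt_of_ne hgg with hlt | hlt
      · exact hP g g' g.2 g'.2 hlt i
      · exact sep_comm hA hv hu (hP g' g g'.2 g.2 hlt) i
    simp only [pos]
    rw [← mul_assoc, hA.comm (mul_mem (hu.conj_mem (P.mem i)) (hv.conj_mem (P.mem i)))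
      (hget j).1, hz, zero_mul]
  have hexact := tendsto_exact h hLne hgoodL hposL hNL hnd hall hsep
  refine squeeze_zero_norm (fun P => ?_)
    (show Tendsto (fun P : Part A => ∑ K ∈ Finset.univ.filter
        (fun K : Finset (ι × ι) => ∀ i, ∃ j, j ≠ i ∧ (i, j) ∈ K),
          ‖kerSum K (fun g : ι → Fin P.n => ⟪Ω, eval g (toks P L) Ω⟫)‖) (uf hA) (𝓝 0) by
      simpa using (tendsto_finsetSum (a := fun _ => (0 : ℝ))
        (Finset.univ.filter (fun K : Finset (ι × ι) => ∀ i, ∃ j, j ≠ i ∧ (i, j) ∈ K))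
        (fun K hK => hexact K (Finset.mem_filter.1 hK).2)))
  refine le_trans (le_of_eq ?_) (sum_cmoment_mul_le (fun v : ι => ((Ms.get v.1).1.2.get v.2).2) _)
  congr 1
  rcases Nat.eq_zero_or_pos P.n with hn | hn
  · have : IsEmpty (Fin P.n) := by rw [hn]; infer_instance
    have h10 : (0 : H →L[ℂ] H) = 1 := by
      have := P.total
      rwa [Finset.univ_eq_empty, Finset.sum_empty] at this
    have hX : ∀ X : H →L[ℂ] H, X = 0 := fun X => by rw [← mul_one X, ← h10, mul_zero]
    simp [hX (cword _ Ms), hX (eval _ (toks P L))]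
  · set col : ι → Fin r := fun v => ((Ms.get v.1).1.2.get v.2).2 with hcol
    have base : ι → Fin P.n := fun _ => ⟨0, hn⟩
    have huniv : vars (toks P L) = Finset.univ := by
      ext v; simp [mem_vars_toks, hall]
    have hw : ∀ f : Fin P.n → Fin r, cword (bFam P f) Ms
        = ∑ g : ι → Fin P.n, (∏ v, (xi (col v) (f (g v)) : ℂ)) • eval g (toks P L) := fun f => by
      have hp := prod_cmix (fun v i => (xi (col v) (f i) : ℂ)) (L := toks P L)
        (by rw [occ_toks]; exact hnd) base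
      rw [huniv, Env_univ, cmix_toks P (fun k i => (xi k (f i) : ℂ)) col] at hp
      rw [← hp, hL, cword, List.map_ofFn, ← List.ofFn_getElem_eq_map]
      congr 2
      funext i
      have hT : (pos i).1.map (fun s => (s.2, col s.1)) = Ms[(i : ℕ)].1.2 := by
        simp [pos, col, List.map_ofFn, Function.comp_def]
      change Ms[(i : ℕ)].1.1 * csProd (bFam P f) Ms[(i : ℕ)].1.2 * Ms[(i : ℕ)].2
        = csProd (bFam P f) ((pos i).1.map (fun s => (s.2, col s.1))) * (Ms[(i : ℕ)].1.1 * Ms[(i : ℕ)].2)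
      have hg : CPos.Good hA Ms[(i : ℕ)] := hget i
      rw [hT, hA.comm hg.1 (csProd_mem (bFam_mem P f) hg.2.2.1), mul_assoc]
    simp only [hw, _root_.sum_apply, smul_apply, inner_sum, inner_smul_right]
    rw [Finset.sum_comm, Finset.mul_sum]
    refine Finset.sum_congr rfl (fun g _ => ?_)
    rw [← Finset.sum_mul, ← mul_assoc, cmoment]
    push_cast
    rfl

end Vale.Agent.P078.Sharp
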