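import Vale.Agent.P078.Sharp.Mix.Moments

/-!
# Normal forms of polynomials in translated colour pieces

Such a polynomial is, on all fine partitions, an element of `A` plus a sum of separated nonempty
products of translates of centred pieces; the average of the latter vanishes.
-/

set_option linter.unusedSectionVars false

namespace Vale.Agent.P078.Sharp

open ComplexInnerProductSpace
open Filter Topology
open Vale.Agent.P078 Vale.Agent.P078.General Vale.Agent.P078.Finite
open scoped CStarAlgebra

universe u

variable {H : Type u} [NormedAddCommGroup H] [InnerProductSpace ℂ H] [CompleteSpace H]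
variable {M : VonNeumannAlgebra H} {A : StarSubalgebra ℂ (H →L[ℂ] H)} {Ω : H}
variable {r : ℕ}

/-- An admissible separated monomial. -/
def TermGood (hA : IsMASAIn M A) (t : (H →L[ℂ] H) × List (Site H r)) : Prop :=
  t.1 ∈ A ∧ t.2 ≠ [] ∧ SitesGood M A t.2 ∧ ∀ᶠ P in (uf hA : Filter (Part A)), CSep P t.1 t.2

/-- A sum of monomials. -/
noncomputable def termSum (β : Fin r → (H →L[ℂ] H)) (L : List ((H →L[ℂ] H) × List (Site H r))) :
    H →L[ℂ] H :=
  (L.map (fun t => t.1 * csProd β t.2)).sum

/-- Eventually a constant of `A` plus separated monomials. -/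
def IsNormal (hA : IsMASAIn M A) (Z : ∀ P : Part A, (Fin P.n → Fin r) → (H →L[ℂ] H)) : Prop :=
  ∃ α ∈ A, ∃ L : List ((H →L[ℂ] H) × List (Site H r)), (∀ t ∈ L, TermGood hA t) ∧
    ∀ᶠ P in (uf hA : Filter (Part A)), ∀ f, Z P f = α + termSum (bFam P f) L

section

variable {hA : IsMASAIn M A}

lemma termSum_mem {β : Fin r → (H →L[ℂ] H)} (hb : ∀ k, β k ∈ A) :
    ∀ {L : List ((H →L[ℂ] H) × List (Site H r))}, (∀ t ∈ L, TermGood hA t) → termSum β L ∈ A
  | [], _ => by simp [termSum, zero_mem A]
  | t :: L, hL => by
    simp only [termSum, List.map_cons, List.sum_cons]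
    exact add_mem (mul_mem (hL t (List.mem_cons_self ..)).1
      (csProd_mem hb (hL t (List.mem_cons_self ..)).2.2.1))
      (termSum_mem hb (fun s hs => hL s (List.mem_cons_of_mem _ hs)))

lemma isNormal_const {a : H →L[ℂ] H} (ha : a ∈ A) :
    IsNormal hA (fun (_ : Part A) (_ : Fin _ → Fin r) => a) :=
  ⟨a, ha, [], by simp, Filter.Eventually.of_forall (fun P f => by simp [termSum])⟩

lemma isNormal_term {t : (H →L[ℂ] H) × List (Site H r)} (ht : TermGood hA t) :
    IsNormal hA (fun P f => t.1 * csProd (bFam P f) t.2) :=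
  ⟨0, zero_mem A, [t], by simpa using ht,
    Filter.Eventually.of_forall (fun P f => by simp [termSum])⟩

lemma IsNormal.congr {Z Z' : ∀ P : Part A, (Fin P.n → Fin r) → (H →L[ℂ] H)}
    (hZ : IsNormal hA Z) (he : ∀ᶠ P in (uf hA : Filter (Part A)), ∀ f, Z' P f = Z P f) :
    IsNormal hA Z' := by
  obtain ⟨α, hα, L, hL, hev⟩ := hZ
  refine ⟨α, hα, L, hL, ?_⟩
  filter_upwards [hev, he] with P h1 h2 f
  rw [h2, h1]

lemma IsNormal.add {Z Z' : ∀ P : Part A, (Fin P.n → Fin r) → (H →L[ℂ] H)}
    (hZ : IsNormal hA Z) (hZ' : IsNormal hA Z') : IsNormal hA (fun P f => Z P f + Z' P f) := by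
  obtain ⟨α, hα, L, hL, hev⟩ := hZ
  obtain ⟨α', hα', L', hL', hev'⟩ := hZ'
  refine ⟨α + α', add_mem hα hα', L ++ L', fun t ht => ?_, ?_⟩
  · rcases List.mem_append.1 ht with h1 | h1
    exacts [hL t h1, hL' t h1]
  · filter_upwards [hev, hev'] with P h1 h2 f
    rw [h1, h2]
    simp only [termSum, List.map_append, List.sum_append]
    abel

lemma IsNormal.mulA {Z : ∀ P : Part A, (Fin P.n → Fin r) → (H →L[ℂ] H)}
    (hZ : IsNormal hA Z) {a : H →L[ℂ] H} (ha : a ∈ A) :
    IsNormal hA (fun P f => a * Z P f) := by
  obtain ⟨α, hα, L, hL, hev⟩ := hZ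
  refine ⟨a * α, mul_mem ha hα, L.map (fun t => (a * t.1, t.2)), fun t ht => ?_, ?_⟩
  · obtain ⟨s, hs, rfl⟩ := List.mem_map.1 ht
    obtain ⟨h1, h2, h3, h4⟩ := hL s hs
    refine ⟨mul_mem ha h1, h2, h3, ?_⟩
    filter_upwards [h4] with P hP
    exact List.Pairwise.imp (fun {p q} e i => by rw [mul_assoc, e i, mul_zero]) hP
  · filter_upwards [hev] with P h1 f
    rw [h1, mul_add]
    congr 1
    simp [termSum, List.map_map, Function.comp_def, List.sum_map_mul_left, mul_assoc]

lemma IsNormal.sum {ι : Type*} {Z : ι → ∀ P : Part A, (Fin P.n → Fin r) → (H →L[ℂ] H)}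
    (s : Finset ι) (hZ : ∀ i ∈ s, IsNormal hA (Z i)) :
    IsNormal hA (fun P f => ∑ i ∈ s, Z i P f) := by
  classical
  induction s using Finset.induction with
  | empty => simpa using isNormal_const (hA := hA) (r := r) (zero_mem A)
  | insert i s hi ih =>
    simp only [Finset.sum_insert hi]
    exact IsNormal.add (hZ i (Finset.mem_insert_self ..))
      (ih (fun j hj => hZ j (Finset.mem_insert_of_mem hj)))

lemma IsNormal.listSum {ι : Type*} {Z : ι → ∀ P : Part A, (Fin P.n → Fin r) → (H →L[ℂ] H)} :
    ∀ (l : List ι), (∀ i ∈ l, IsNormal hA (Z i)) →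
      IsNormal hA (fun P f => (l.map (fun i => Z i P f)).sum)
  | [], _ => by simpa using isNormal_const (hA := hA) (r := r) (zero_mem A)
  | i :: l, hZ => by
    simp only [List.map_cons, List.sum_cons]
    exact IsNormal.add (hZ i (List.mem_cons_self ..))
      (IsNormal.listSum l (fun j hj => hZ j (List.mem_cons_of_mem _ hj)))

lemma bFam_mul (P : Part A) (f : Fin P.n → Fin r) (d c : Fin r) :
    bFam P f d * bFam P f c
      = (((if d = c then (1 : ℝ) else 0) - 1 / r : ℝ) : ℂ) • bFam P f c
        + ((-(1 / r) : ℝ) : ℂ) • bFam P f d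
        + (((if d = c then (1 : ℝ) else 0) / r - (1 / r) ^ 2 : ℝ) : ℂ) • (1 : H →L[ℂ] H) := by
  conv_rhs => rw [← P.total]
  simp only [bFam, bOp, Finset.smul_sum, Finset.sum_mul_sum, ← Finset.sum_add_distrib]
  refine Finset.sum_congr rfl (fun i _ => ?_)
  rw [Finset.sum_eq_single i (fun j _ hj => by
      rw [smul_mul_smul_comm, P.orth i j hj.symm, smul_zero]) (by simp),
    smul_mul_smul_comm, (P.proj i).isIdempotentElem.eq, smul_smul, smul_smul, ← add_smul,
    ← add_smul]
  congr 1
  simp only [xi]
  split_ifs <;> simp_all <;> ring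

end

variable (h : FinSetting M A Ω)
include h

/-- Multiplying a separated monomial by one more translate. -/
lemma isNormal_insert {s : Site H r} (hs : IsNormaliser M A s.1) :
    ∀ (todo done : List (Site H r)) (a : H →L[ℂ] H), a ∈ A → SitesGood M A (done ++ todo) →
      (∀ᶠ P in (uf h.masa : Filter (Part A)), CSep P a (done ++ todo)) →
      (∀ᶠ P in (uf h.masa : Filter (Part A)), ∀ v ∈ done, ∀ i,
        a * ((s.1 * P.e i * star s.1) * (v.1 * P.e i * star v.1)) = 0) →
      IsNormal h.masa (fun P f => a * (s.1 * bFam P f s.2 * star s.1 *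
        csProd (bFam P f) (done ++ todo))) := by
  have hA := h.masa
  intro todo
  induction todo with
  | nil =>
    intro done a ha hT hsep h1
    rw [List.append_nil] at hT hsep
    refine (isNormal_term (t := (a, s :: done)) ⟨ha, by simp, ?_, ?_⟩).congr
      (Filter.Eventually.of_forall (fun P f => by rw [List.append_nil, csProd_cons]))
    · intro v hv
      rcases List.mem_cons.1 hv with rfl | hv
      exacts [hs, hT v hv]
    · filter_upwards [hsep, h1] with P hP hP1
      refine List.pairwise_cons.2 ⟨fun p hp => ?_, hP⟩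
      obtain ⟨v, hv, rfl⟩ := List.mem_map.1 hp
      exact hP1 v hv
  | cons v todo ih =>
    intro done a ha hT hsep h1
    have hv : IsNormaliser M A v.1 := hT v (by simp)
    obtain ⟨g, hgA, -, hcol, hev⟩ := exists_collapse h (IsNormaliser.mul hA hs.adjoint hv)
    set X := s.1 * g * star s.1 with hX
    have hXA : X ∈ A := hs.conj_mem hgA
    have hXs : X * (s.1 * star s.1) = X := by
      rw [hX, mul_assoc (s.1 * g), ← mul_assoc (star s.1), hs.src_mul_star]
    have hswap : ∀ b ∈ A, v.1 * b * star v.1 * X = s.1 * b * star s.1 * X := by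
      intro b hb
      have hV := hv.conj_mem hb
      have hR : s.1 * star s.1 ∈ A := hs.2.2.2.1
      calc v.1 * b * star v.1 * X = X * (s.1 * star s.1) * (v.1 * b * star v.1) := by
            rw [hXs, hA.comm hXA hV]
        _ = X * (v.1 * b * star v.1 * (s.1 * star s.1)) := by
            rw [mul_assoc, hA.comm hR hV]
        _ = s.1 * (g * (star s.1 * v.1 * b * star (star s.1 * v.1))) * star s.1 := by
            rw [hX, star_mul, star_star]; simp only [mul_assoc]
        _ = s.1 * (b * g) * star s.1 := by
            rw [hA.comm hgA ((IsNormaliser.mul hA hs.adjoint hv).conj_mem hb), hcol b hb]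
        _ = _ := by rw [hX, hs.conj_mul hA hb]
    have hXA' : 1 - X ∈ A := sub_mem (one_mem A) hXA
    have hdone : SitesGood M A done := fun w hw => hT w (by simp [hw])
    have hT' : SitesGood M A (done ++ todo) := fun w hw => hT w (by
      simp only [List.mem_append, List.mem_cons] at hw ⊢; tauto)
    have hsepmul : ∀ {x : H →L[ℂ] H}, x ∈ A →
        ∀ᶠ P in (uf hA : Filter (Part A)), CSep P (a * x) (done ++ v :: todo) := fun hx => by
      filter_upwards [hsep] with P hP
      exact List.Pairwise.imp (fun {p q} e i => by rw [hA.comm ha hx, mul_assoc, e i, mul_zero]) hP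
    have hY : IsNormal hA (fun P f => a * (1 - X) * (s.1 * bFam P f s.2 * star s.1 *
        csProd (bFam P f) (done ++ v :: todo))) := by
      have := ih (done ++ [v]) (a * (1 - X)) (mul_mem ha hXA') (by simpa using hT)
        (by simpa using hsepmul hXA') ?_
      · simpa using this
      filter_upwards [h1, hev] with P hP hPu w hw i
      simp only [List.mem_append, List.mem_singleton] at hw
      rcases hw with hw | rfl
      · rw [hA.comm ha hXA', mul_assoc, hP w hw i, mul_zero]
      · have he := P.mem i
        have hse := hs.conj_mem he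
        have hwe := hv.conj_mem he
        set Z := s.1 * P.e i * star s.1 * (w.1 * P.e i * star w.1) with hZ
        have hZX : Z * X = Z := by
          have e0 := hPu i
          rw [mul_sub, mul_one, sub_eq_zero] at e0
          have e1 : Z = s.1 * (P.e i * (star s.1 * w.1 * P.e i * star (star s.1 * w.1)))
              * star s.1 := by
            calc Z = s.1 * P.e i * (star s.1 * s.1 * star s.1) * (w.1 * P.e i * star w.1) := by
                  rw [hZ, hs.src_mul_star]
              _ = s.1 * P.e i * star s.1 * (s.1 * star s.1 * (w.1 * P.e i * star w.1)) := by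
                  simp only [mul_assoc]
              _ = s.1 * P.e i * star s.1 * (w.1 * P.e i * star w.1 * (s.1 * star s.1)) := by
                  rw [hA.comm hs.2.2.2.1 hwe]
              _ = _ := by rw [star_mul, star_star]; simp only [mul_assoc]
          rw [e1, hX, hs.conj_mul hA (mul_mem he
            ((IsNormaliser.mul hA hs.adjoint hv).conj_mem he)), ← e0]
        rw [mul_assoc a, hA.comm hXA' (mul_mem hse hwe), mul_sub, mul_one, hZX, sub_self,
          mul_zero]
    set k1 : ℂ := (((if s.2 = v.2 then (1 : ℝ) else 0) - 1 / r : ℝ) : ℂ)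
    set k2 : ℂ := ((-(1 / r) : ℝ) : ℂ)
    set k3 : ℂ := (((if s.2 = v.2 then (1 : ℝ) else 0) / r - (1 / r) ^ 2 : ℝ) : ℂ)
    have hscal : ∀ (k : ℂ) {x : H →L[ℂ] H}, x ∈ A → k • x ∈ A := fun k x hx =>
      A.toSubalgebra.smul_mem hx k
    have hX1 : IsNormal hA (fun P f => a * X * (s.1 * bFam P f s.2 * star s.1 *
        csProd (bFam P f) (done ++ v :: todo))) := by
      have hvd : IsNormaliser M A ((v.1, s.2) : Site H r).1 := hv
      have hTd : SitesGood M A (done ++ (v.1, s.2) :: todo) := fun w hw => by
        simp only [List.mem_append, List.mem_cons] at hw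
        rcases hw with hw | rfl | hw
        exacts [hT w (by simp [hw]), hv, hT w (by simp [hw])]
      have g1 : IsNormal hA (fun P f => k1 • (a * X) * csProd (bFam P f) (done ++ v :: todo)) := by
        refine isNormal_term (t := (k1 • (a * X), done ++ v :: todo))
          ⟨hscal _ (mul_mem ha hXA), by simp, hT, ?_⟩
        filter_upwards [hsepmul hXA] with P hP
        exact List.Pairwise.imp (fun {p q} e i => by rw [smul_mul_assoc, e i, smul_zero]) hP
      have g2 : IsNormal hA (fun P f => k2 • (a * X) *
          csProd (bFam P f) (done ++ (v.1, s.2) :: todo)) := by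
        refine isNormal_term (t := (k2 • (a * X), done ++ (v.1, s.2) :: todo))
          ⟨hscal _ (mul_mem ha hXA), by simp, hTd, ?_⟩
        filter_upwards [hsepmul hXA] with P hP
        simp only [CSep, List.map_append, List.map_cons] at hP ⊢
        exact List.Pairwise.imp (fun {p q} e i => by rw [smul_mul_assoc, e i, smul_zero]) hP
      have hvv : v.1 * star v.1 ∈ A := hv.2.2.2.1
      have g3 : IsNormal hA (fun P f => k3 • (a * X * (v.1 * star v.1)) *
          csProd (bFam P f) (done ++ todo)) := by
        have hc : k3 • (a * X * (v.1 * star v.1)) ∈ A := hscal _ (mul_mem (mul_mem ha hXA) hvv)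
        by_cases hempty : done ++ todo = []
        · simp only [hempty, csProd_nil, mul_one]
          exact isNormal_const hc
        · refine isNormal_term (t := (_, done ++ todo)) ⟨hc, hempty, hT', ?_⟩
          filter_upwards [hsepmul (mul_mem hXA hvv)] with P hP
          rw [mul_assoc a]
          refine List.Pairwise.sublist (((List.sublist_cons_self v todo).append_left done).map _) ?_
          exact List.Pairwise.imp (fun {p q} e i => by rw [smul_mul_assoc, e i, smul_zero]) hP
      refine ((g1.add g2).add g3).congr (Filter.Eventually.of_forall (fun P f => ?_))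
      have hb := bFam_mem P f
      rw [csProd_middle hA hb hv hdone, csProd_middle hA hb hvd hdone]
      set R := csProd (bFam P f) (done ++ todo)
      have e1 : a * X * (s.1 * bFam P f s.2 * star s.1)
          = a * X * (v.1 * bFam P f s.2 * star v.1) := by
        rw [mul_assoc a, hA.comm hXA (hs.conj_mem (hb _)), ← hswap _ (hb _),
          ← hA.comm hXA (hv.conj_mem (hb _)), mul_assoc a]
      have e2 : v.1 * bFam P f s.2 * star v.1 * (v.1 * bFam P f v.2 * star v.1)
          = k1 • (v.1 * bFam P f v.2 * star v.1) + k2 • (v.1 * bFam P f s.2 * star v.1)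
            + k3 • (v.1 * star v.1) := by
        rw [hv.conj_mul hA (hb _), bFam_mul]
        simp only [mul_add, add_mul, mul_smul_comm, smul_mul_assoc, mul_one, k1, k2, k3]
      rw [← mul_assoc (a * X), e1, mul_assoc (a * X), ← mul_assoc (v.1 * bFam P f s.2 * star v.1),
        e2]
      simp only [add_mul, mul_add, smul_mul_assoc, mul_smul_comm, mul_assoc]
    refine (hX1.add hY).congr (Filter.Eventually.of_forall (fun P f => ?_))
    rw [← add_mul, ← mul_add, add_sub_cancel, mul_one]

/-- Multiplying a normal polynomial by one more translate. -/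
lemma IsNormal.mulSite {Z : ∀ P : Part A, (Fin P.n → Fin r) → (H →L[ℂ] H)}
    (hZ : IsNormal h.masa Z) {s : Site H r} (hs : IsNormaliser M A s.1) :
    IsNormal h.masa (fun P f => s.1 * bFam P f s.2 * star s.1 * Z P f) := by
  have hA := h.masa
  obtain ⟨α, hα, L, hL, hev⟩ := hZ
  have h0 : IsNormal hA (fun P f => α * csProd (bFam P f) [s]) :=
    isNormal_term (t := (α, [s])) ⟨hα, by simp, fun v hv => by rw [List.mem_singleton.1 hv]; exact hs,
      Filter.Eventually.of_forall (fun P => List.pairwise_singleton _ _)⟩
  have h1 := IsNormal.listSum (hA := hA)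
    (Z := fun (t : (H →L[ℂ] H) × List (Site H r)) P f =>
      t.1 * (s.1 * bFam P f s.2 * star s.1 * csProd (bFam P f) t.2)) L (fun t ht => by
    obtain ⟨ha, -, hT, hsep⟩ := hL t ht
    have := isNormal_insert h hs t.2 [] t.1 ha (by simpa using hT) (by simpa using hsep)
      (Filter.Eventually.of_forall (fun P v hv => by simp at hv))
    simpa using this)
  refine (h0.add h1).congr ?_
  filter_upwards [hev] with P hP f
  have hS := hs.conj_mem (bFam_mem P f s.2)
  rw [hP, mul_add, csProd_cons, csProd_nil, mul_one, hA.comm hS hα]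
  congr 1
  simp only [termSum, ← List.sum_map_mul_left]
  refine congrArg List.sum (List.map_congr_left (fun t ht => ?_))
  rw [← mul_assoc, hA.comm hS (hL t ht).1, mul_assoc]

/-- A product of translated pieces is normal. -/
lemma isNormal_pieces {a : H →L[ℂ] H} (ha : a ∈ A) :
    ∀ {T : List (Site H r)}, SitesGood M A T →
      IsNormal h.masa (fun P f => a * (T.map (fun s => s.1 * P.piece f s.2 * star s.1)).prod)
  | [], _ => by simpa using isNormal_const (hA := h.masa) (r := r) ha
  | s :: T, hT => by
    have hA := h.masa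
    have hs := hT.head
    have ih := isNormal_pieces ha hT.tail
    refine ((ih.mulA (A.toSubalgebra.smul_mem hs.2.2.2.1 ((1 / r : ℝ) : ℂ))).add
      (IsNormal.mulSite h ih hs)).congr (Filter.Eventually.of_forall (fun P f => ?_))
    have hS := hs.conj_mem (bFam_mem P f s.2)
    have e : s.1 * P.piece f s.2 * star s.1
        = ((1 / r : ℝ) : ℂ) • (s.1 * star s.1) + s.1 * bFam P f s.2 * star s.1 := by
      rw [piece_eq_bOp, mul_add, add_mul, mul_smul_comm, mul_one, smul_mul_assoc]
      rfl
    rw [List.map_cons, List.prod_cons, e, ← mul_assoc a,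
      hA.comm ha (add_mem (A.toSubalgebra.smul_mem hs.2.2.2.1 _) hS), mul_assoc, add_mul]

/-- A monomial times a monomial is normal. -/
lemma isNormal_mul_monomial {a : H →L[ℂ] H} (ha : a ∈ A)
    {t : (H →L[ℂ] H) × List (Site H r)} (ht : TermGood h.masa t) :
    ∀ {T : List (Site H r)}, SitesGood M A T →
      IsNormal h.masa (fun P f => a * csProd (bFam P f) T * (t.1 * csProd (bFam P f) t.2))
  | [], _ => by simpa [csProd_nil] using (isNormal_term ht).mulA ha
  | s :: T, hT => by
    have hA := h.masa
    have hs := hT.head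
    refine (IsNormal.mulSite h (isNormal_mul_monomial ha ht hT.tail) hs).congr
      (Filter.Eventually.of_forall (fun P f => ?_))
    rw [csProd_cons, ← mul_assoc a, hA.comm ha (hs.conj_mem (bFam_mem P f s.2))]
    simp only [mul_assoc]

end Vale.Agent.P078.Sharp
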